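import Vale.Agent.P040.Cut.Count
import Vale.Agent.P040.Cut.Del

/-!
# Two-page Zarankiewicz for all `m, n`: definitions

A (cyclic) sequence of the reds `0, …, 2k` is given by a key function `κ : ℕ → ℤ`, injective on
`range (2k+1)`: the sequence lists the reds by increasing key.
See `notes/P040_proof.md`.
-/

namespace Vale.Agent.P040.All

open Finset

/-- position of `x` in the sequence of `0..n-1` sorted by the key `κ` -/
def pos (n : ℕ) (κ : ℕ → ℤ) (x : ℕ) : ℕ := ((range n).filter fun y => κ y < κ x).card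

/-- `y` is one of the `k` cyclic successors of `x` (`p` = positions in a cyclic sequence of
length `2k+1`) -/
def Foll (k : ℕ) (p : ℕ → ℕ) (x y : ℕ) : Prop := (p x < p y ∧ p y ≤ p x + k) ∨ p y + k < p x

instance (k : ℕ) (p : ℕ → ℕ) (x y : ℕ) : Decidable (Foll k p x y) := by
  unfold Foll; infer_instance

/-- number of `y > x` among the `k` cyclic successors of `x` (positions `p`) -/
def NNp (k : ℕ) (p : ℕ → ℕ) (x : ℕ) : ℕ :=
  ((range (2 * k + 1)).filter fun y => x < y ∧ Foll k p x y).card

/-- number of `y > x` among the `k` cyclic successors of `x` (keys `κ`) -/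
def NN (k : ℕ) (κ : ℕ → ℤ) (x : ℕ) : ℕ := NNp k (pos (2 * k + 1) κ) x

/-- the key is injective on `range n` -/
def Inj (n : ℕ) (κ : ℕ → ℤ) : Prop := ∀ x < n, ∀ y < n, κ x = κ y → x = y

/-- discordant pairs of two sequences -/
def Disc (n : ℕ) (κ κ' : ℕ → ℤ) : Finset (ℕ × ℕ) :=
  ((range n) ×ˢ (range n)).filter fun q => q.1 < q.2 ∧ ¬ (κ q.1 < κ q.2 ↔ κ' q.1 < κ' q.2)

/-- `ℓ¹` distance of the vectors `NN` -/
def DD (k : ℕ) (κ κ' : ℕ → ℤ) : ℤ := ∑ x ∈ range (2 * k + 1), |(NN k κ x : ℤ) - NN k κ' x|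

/-- exchange the elements `a`, `b` in the sequence -/
def sw (κ : ℕ → ℤ) (a b : ℕ) : ℕ → ℤ := fun y => κ (Equiv.swap a b y)

/-- `b` is the immediate successor of `a` in the (linear) sequence `κ` -/
structure Adj (n : ℕ) (κ : ℕ → ℤ) (a b : ℕ) : Prop where
  ha : a < n
  hb : b < n
  hab : κ a < κ b
  hadj : ∀ z < n, ¬ (κ a < κ z ∧ κ z < κ b)

/-! ## the keys -/

/-- The rotation at a blue vertex of type `(g, s)`: upper reds by increasing offset (offset =
cyclic position counted from the gap `g` to the right), then lower reds by decreasing offset. -/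
def pkey (k g s : ℕ) (x : ℕ) : ℤ :=
  if s.testBit x then (if g ≤ x then (x : ℤ) - g else (x : ℤ) + (2 * k + 1) - g)
  else 4 * (2 * k + 1) - (if g ≤ x then (x : ℤ) - g else (x : ℤ) + (2 * k + 1) - g)

/-- key of `x` in block number `j`, ascending -/
def up (k : ℕ) (j : ℤ) (x : ℕ) : ℤ := 2 * j * (2 * k + 1) + x
/-- key of `x` in block number `j`, descending -/
def dn (k : ℕ) (j : ℤ) (x : ℕ) : ℤ := 2 * j * (2 * k + 1) - x

/-- `(D.M desc, U.M asc | U.R asc, U.L asc, D.L desc, D.R desc)` -/
def key0 (k g g' s _l : ℕ) (x : ℕ) : ℤ :=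
  if x < g then (if s.testBit x then up k 3 x else dn k 4 x)
  else if x < g' then (if s.testBit x then up k 1 x else dn k 0 x)
  else (if s.testBit x then up k 2 x else dn k 5 x)

/-- `(D'.M asc, U'.M desc | U.R asc, U.L asc, D.L desc, D.R desc)` -/
def key1 (k g g' s l : ℕ) (x : ℕ) : ℤ :=
  if x < g then (if s.testBit x then up k 3 x else dn k 4 x)
  else if x < g' then (if l.testBit x then dn k 1 x else up k 0 x)
  else (if s.testBit x then up k 2 x else dn k 5 x)

/-- `(D'.M asc, U'.M desc | U.R asc, U'.L desc, D'.L asc, D.R desc)` -/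
def key2 (k g g' s l : ℕ) (x : ℕ) : ℤ :=
  if x < g then (if l.testBit x then dn k 3 x else up k 4 x)
  else if x < g' then (if l.testBit x then dn k 1 x else up k 0 x)
  else (if s.testBit x then up k 2 x else dn k 5 x)

/-- `(D'.M asc, U'.M desc | U'.L desc, U.R asc, D.R desc, D'.L asc)` -/
def key3 (k g g' s l : ℕ) (x : ℕ) : ℤ :=
  if x < g then (if l.testBit x then dn k 2 x else up k 5 x)
  else if x < g' then (if l.testBit x then dn k 1 x else up k 0 x)
  else (if s.testBit x then up k 3 x else dn k 4 x)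

/-- `(D'.M asc, U'.M desc | U'.L desc, U'.R desc, D'.R asc, D'.L asc)` -/
def key4 (k g g' _s l : ℕ) (x : ℕ) : ℤ :=
  if x < g then (if l.testBit x then dn k 2 x else up k 5 x)
  else if x < g' then (if l.testBit x then dn k 1 x else up k 0 x)
  else (if l.testBit x then dn k 3 x else up k 4 x)

/-! ## the features -/

/-- `ξ_x(b) = N_x(π_b) - lo_x`, `lo_x = max (k - x) 0` -/
def xi (k g s x : ℕ) : ℕ := NN k (pkey k g s) x - (k - x)

/-- width `w_x = min (x, 2k - x)` -/
def wd (k x : ℕ) : ℕ := min x (2 * k - x)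

/-- the feature `(x, τ)`, `τ < w_x`, of the type `(g, s)`: thermometer code of `ξ_x`, filled from
the bottom if the blue vertex is left of the red `x`, from the top otherwise -/
def Phi (k : ℕ) (f : ℕ × ℕ) (g s : ℕ) : Bool :=
  if g ≤ f.1 then decide (f.2 < xi k g s f.1) else decide (wd k f.1 ≤ f.2 + xi k g s f.1)

/-- the index set of the features -/
def II (k : ℕ) : Finset (ℕ × ℕ) :=
  ((range (2 * k + 1)) ×ˢ (range k)).filter fun f => f.2 < wd k f.1

end Vale.Agent.P040.All
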