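import Vale.Agent.P040.Cut.Del

/-!
# From odd `m` to all `m`

The Zarankiewicz bound for two-page drawings of `K_{2k+1,n}` gives the bound for all `K_{m,n}`:
for even `m` delete a vertex of the first class and count (`Cut.del_bound`).
-/

namespace Vale.Agent.P040.All

open Vale.Agent.P040.Cut

/-- If every two-page drawing of `K_{2k+1,n}` has at least `k^2 Z(n)` crossings (all `k`, `n`), then
every two-page drawing of `K_{m,n}` has at least `Z(m) Z(n)` crossings. -/
theorem all_of_odd
    (h : ∀ (k n : ℕ) (D : TwoPageDrawing (2 * k + 1) n),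
      k * k * ((n / 2) * ((n - 1) / 2)) ≤ D.crossings)
    (m n : ℕ) (D : TwoPageDrawing m n) :
    (m / 2) * ((m - 1) / 2) * ((n / 2) * ((n - 1) / 2)) ≤ D.crossings := by
  obtain ⟨k, hk | hk⟩ := Nat.even_or_odd' m
  · -- `m = 2 * k`
    rcases Nat.eq_zero_or_pos k with h0 | h0
    · subst hk; subst h0; simp
    · obtain ⟨j, rfl⟩ : ∃ j, k = j + 1 := ⟨k - 1, by omega⟩
      have hm : m = (2 * j + 1) + 1 := by omega
      subst hm
      have e1 : (2 * j + 1 + 1) / 2 = j + 1 := by omega
      have e2 : (2 * j + 1 + 1 - 1) / 2 = j := by omega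
      rw [e1, e2]
      have hb := del_bound (m := 2 * j + 1) (n := n) _ (h j n) D
      have e3 : 2 * j + 1 - 1 = 2 * j := by omega
      rw [e3] at hb
      rcases Nat.eq_zero_or_pos j with hj | hj
      · subst hj; simp
      · set Z := (n / 2) * ((n - 1) / 2) with hZ
        have hb' : (2 * j) * ((j + 1) * j * Z) ≤ (2 * j) * D.crossings := by
          calc (2 * j) * ((j + 1) * j * Z) = (2 * j + 1 + 1) * (j * j * Z) := by ring
            _ ≤ _ := hb
        exact Nat.le_of_mul_le_mul_left hb' (by omega)
  · -- `m = 2 * k + 1`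
    subst hk
    have e1 : (2 * k + 1) / 2 = k := by omega
    have e2 : (2 * k + 1 - 1) / 2 = k := by omega
    rw [e1, e2]
    exact h k n D

end Vale.Agent.P040.All
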