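import Vale.Agent.P040.All.Foll

/-! # Extreme values of `NN` (rows E1 - E12) -/

namespace Vale.Agent.P040.All

open Finset

/-- the elements of `S` come immediately after `x` in the sequence `κ` -/
structure Blk (n : ℕ) (κ : ℕ → ℤ) (x : ℕ) (S : ℕ → Prop) : Prop where
  hx : x < n
  hxS : ¬ S x
  h1 : ∀ y < n, S y → κ x < κ y
  h2 : ∀ y < n, S y → ∀ z < n, ¬ S z → κ x < κ z → κ y < κ z

variable {n k x : ℕ} {κ : ℕ → ℤ} {S : ℕ → Prop} [DecidablePred S]

/-- (E1) `{κ y < κ x}`, `{x}`, `filter S` are pairwise disjoint subsets of `range n`. -/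
lemma blk_a (h : Blk n κ x S) : pos n κ x + ((range n).filter S).card + 1 ≤ n := by
  have hd : Disjoint ((range n).filter fun y => κ y < κ x) ((range n).filter S) := by
    rw [Finset.disjoint_left]
    intro y hy1 hy2
    rw [mem_filter, mem_range] at hy1 hy2
    exact absurd (h.h1 y hy1.1 hy2.2) (not_lt.2 hy1.2.le)
  have hx : x ∉ ((range n).filter fun y => κ y < κ x) ∪ ((range n).filter S) := by
    rw [mem_union, mem_filter, mem_filter]
    rintro (h1 | h1)
    · exact lt_irrefl _ h1.2
    · exact h.hxS h1.2
  have hsub : insert x (((range n).filter fun y => κ y < κ x) ∪ ((range n).filter S)) ⊆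
      range n := by
    intro y hy
    rw [mem_insert, mem_union, mem_filter, mem_filter] at hy
    rcases hy with rfl | h1 | h1
    · exact mem_range.2 h.hx
    · exact h1.1
    · exact h1.1
  have hc := card_le_card hsub
  rw [card_insert_of_notMem hx, card_union_of_disjoint hd, card_range] at hc
  exact hc

/-- (E2) `{κ y < κ x}`, `{x}`, `filter S` are pairwise disjoint subsets of `{κ y < κ z}`. -/
lemma blk_b (h : Blk n κ x S) {z : ℕ} (hz : z < n) (hzS : ¬ S z) (hxz : κ x < κ z) :
    pos n κ x + ((range n).filter S).card + 1 ≤ pos n κ z := by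
  have hd : Disjoint ((range n).filter fun y => κ y < κ x) ((range n).filter S) := by
    rw [Finset.disjoint_left]
    intro y hy1 hy2
    rw [mem_filter, mem_range] at hy1 hy2
    exact absurd (h.h1 y hy1.1 hy2.2) (not_lt.2 hy1.2.le)
  have hx : x ∉ ((range n).filter fun y => κ y < κ x) ∪ ((range n).filter S) := by
    rw [mem_union, mem_filter, mem_filter]
    rintro (h1 | h1)
    · exact lt_irrefl _ h1.2
    · exact h.hxS h1.2
  have hsub : insert x (((range n).filter fun y => κ y < κ x) ∪ ((range n).filter S)) ⊆
      (range n).filter fun y => κ y < κ z := by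
    intro y hy
    rw [mem_insert, mem_union, mem_filter, mem_filter] at hy
    rw [mem_filter]
    rcases hy with rfl | h1 | h1
    · exact ⟨mem_range.2 h.hx, hxz⟩
    · exact ⟨h1.1, lt_trans h1.2 hxz⟩
    · exact ⟨h1.1, h.h2 y (mem_range.1 h1.1) h1.2 z hz hzS hxz⟩
  have hc := card_le_card hsub
  rw [card_insert_of_notMem hx, card_union_of_disjoint hd] at hc
  exact hc

/-- (E3) `{κ u < κ y} ⊆ {κ u < κ x} ∪ {x} ∪ (filter S).erase y`: if `κ x < κ u < κ y` then `S u` by
`h2`; if `κ u = κ x` then `u = x`. -/
lemma blk_c (hκ : Inj n κ) (h : Blk n κ x S) {y : ℕ} (hy : y < n) (hyS : S y) :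
    pos n κ x < pos n κ y ∧ pos n κ y ≤ pos n κ x + ((range n).filter S).card := by
  refine ⟨pos_lt_pos h.hx (h.h1 y hy hyS), ?_⟩
  have hyT : y ∈ (range n).filter S := mem_filter.2 ⟨mem_range.2 hy, hyS⟩
  have hsub : ((range n).filter fun u => κ u < κ y) ⊆
      insert x (((range n).filter fun u => κ u < κ x) ∪ ((range n).filter S).erase y) := by
    intro u hu
    rw [mem_filter, mem_range] at hu
    rw [mem_insert, mem_union, mem_filter, mem_erase, mem_filter, mem_range]
    rcases lt_trichotomy (κ u) (κ x) with h1 | h1 | h1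
    · exact Or.inr (Or.inl ⟨hu.1, h1⟩)
    · exact Or.inl (hκ u hu.1 x h.hx h1)
    · refine Or.inr (Or.inr ⟨?_, hu.1, ?_⟩)
      · rintro rfl
        exact lt_irrefl _ hu.2
      · by_contra hS
        exact absurd (h.h2 y hy hyS u hu.1 hS h1) (not_lt.2 hu.2.le)
  have hc := card_le_card hsub
  have h1 := card_insert_le x
    (((range n).filter fun u => κ u < κ x) ∪ ((range n).filter S).erase y)
  have h2 := card_union_le ((range n).filter fun u => κ u < κ x) (((range n).filter S).erase y)
  have h3 := card_erase_of_mem hyT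
  have h4 : 0 < ((range n).filter S).card := card_pos.2 ⟨y, hyT⟩
  unfold pos
  omega

/-- (E4) -/
lemma card_lt_filter (hx : x < n) : ((range n).filter fun y => y < x).card = x := by
  have : (range n).filter (fun y => y < x) = range x := by
    ext y
    simp only [mem_filter, mem_range]
    omega
  rw [this, card_range]

/-- (E5) -/
lemma card_gt_filter (hx : x < n) : ((range n).filter fun y => x < y).card = n - 1 - x := by
  have : (range n).filter (fun y => x < y) = Ioo x n := by
    ext y
    simp only [mem_filter, mem_range, mem_Ioo]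
    omega
  rw [this, Nat.card_Ioo]
  omega

/-- (E6) smaller elements right after `x`, `k ≤ x`: no `z > x` is a follower.  If `κ x < κ z` use
E2 (+E4): `pos z ≥ pos x + x + 1 > pos x + k`.  If `κ z < κ x` (`pos_lt_pos`): `pos x ≤ 2k - x ≤ k`
by E1.  (`κ z ≠ κ x` by injectivity.)  `filter_eq_empty_iff`/`card_eq_zero`. -/
lemma NN_lo_big (hκ : Inj (2 * k + 1) κ) (h : Blk (2 * k + 1) κ x (fun y => y < x))
    (hk : k ≤ x) : NN k κ x = 0 := by
  unfold NN NNp
  rw [card_eq_zero, filter_eq_empty_iff]
  intro z hz hcon
  have hz' : z < 2 * k + 1 := mem_range.mp hz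
  obtain ⟨hxz, hF⟩ := hcon
  have hc := card_lt_filter h.hx
  have hA := blk_a h
  rw [hc] at hA
  rcases lt_trichotomy (κ x) (κ z) with h1 | h1 | h1
  · have hB := blk_b h hz' (by omega) h1
    rw [hc] at hB
    unfold Foll at hF
    omega
  · have := hκ x h.hx z hz' h1
    omega
  · have := pos_lt_pos (n := 2 * k + 1) hz' h1
    unfold Foll at hF
    omega

/-- (E7) smaller elements right after `x`, `x < k`: all `y < x` are followers (E3, E4), so the
filter in `NN_add_small` is all of `range x`. -/
lemma NN_lo_small (hκ : Inj (2 * k + 1) κ) (h : Blk (2 * k + 1) κ x (fun y => y < x))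
    (hk : x < k) : NN k κ x + x = k := by
  have h1 := NN_add_small hκ h.hx
  have h2 : (range x).filter (fun y => Foll k (pos (2 * k + 1) κ) x y) = range x := by
    apply filter_true_of_mem
    intro y hy
    rw [mem_range] at hy
    have h3 := blk_c hκ h (y := y) (by have := h.hx; omega) hy
    rw [card_lt_filter h.hx] at h3
    left
    omega
  rw [h2, card_range] at h1
  exact h1

/-- (E8) larger elements right after `x`, `k ≤ x`: all `y > x` are followers (E3, E5), so the filter
in `NN` is `{y | x < y}`, of cardinality `2k - x` (E5). -/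
lemma NN_hi_big (hκ : Inj (2 * k + 1) κ) (h : Blk (2 * k + 1) κ x (fun y => x < y))
    (hk : k ≤ x) : NN k κ x = 2 * k - x := by
  have h2 : (range (2 * k + 1)).filter (fun y => x < y ∧ Foll k (pos (2 * k + 1) κ) x y)
      = (range (2 * k + 1)).filter (fun y => x < y) := by
    apply filter_congr
    intro y hy
    rw [mem_range] at hy
    constructor
    · exact fun hh => hh.1
    · intro hxy
      refine ⟨hxy, ?_⟩
      have h3 := blk_c hκ h (y := y) hy hxy
      rw [card_gt_filter h.hx] at h3
      left
      omega
  unfold NN NNp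
  rw [h2, card_gt_filter h.hx]
  omega

/-- (E9) larger elements right after `x`, `x < k`: no `z < x` is a follower (as in E6, with E5:
`pos z ≥ pos x + (2k - x) + 1 > pos x + k`, resp. `pos x ≤ x < k`), so `NN_add_small` gives `k`. -/
lemma NN_hi_small (hκ : Inj (2 * k + 1) κ) (h : Blk (2 * k + 1) κ x (fun y => x < y))
    (hk : x < k) : NN k κ x = k := by
  have hx : x < 2 * k + 1 := h.hx
  have h0 := NN_add_small (k := k) hκ hx
  have hc := card_gt_filter (n := 2 * k + 1) hx
  have ha := blk_a h
  have hE : ((range x).filter fun y => Foll k (pos (2 * k + 1) κ) x y) = ∅ := by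
    rw [filter_eq_empty_iff]
    intro z hz hF
    have hzx : z < x := mem_range.1 hz
    have hz' : z < 2 * k + 1 := by omega
    rcases lt_trichotomy (κ x) (κ z) with hlt | heq | hgt
    · have hb := blk_b h hz' (by omega) hlt
      unfold Foll at hF
      omega
    · have := hκ x hx z hz' heq
      omega
    · have hp := pos_lt_pos (n := 2 * k + 1) hz' hgt
      unfold Foll at hF
      omega
  rw [hE] at h0
  simpa using h0

/-- (E10) in all four situations `NN` is extreme.  E6 - E9, and `NN_neg`, `inj_neg` for the
reversed sequences. -/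
lemma NN_extreme (hκ : Inj (2 * k + 1) κ)
    (h : Blk (2 * k + 1) κ x (fun y => y < x) ∨ Blk (2 * k + 1) κ x (fun y => x < y) ∨
      Blk (2 * k + 1) (fun y => - κ y) x (fun y => y < x) ∨
      Blk (2 * k + 1) (fun y => - κ y) x (fun y => x < y)) :
    NN k κ x = k - x ∨ NN k κ x = min k (2 * k - x) := by
  rcases h with h | h | h | h
  · rcases le_or_gt k x with hk | hk
    · have := NN_lo_big hκ h hk
      left; omega
    · have := NN_lo_small hκ h hk
      left; omega
  · rcases le_or_gt k x with hk | hk
    · have := NN_hi_big hκ h hk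
      right; omega
    · have := NN_hi_small hκ h hk
      right; omega
  · have hn := NN_neg hκ h.hx
    rcases le_or_gt k x with hk | hk
    · have := NN_lo_big (inj_neg hκ) h hk
      right; omega
    · have := NN_lo_small (inj_neg hκ) h hk
      right; omega
  · have hn := NN_neg hκ h.hx
    have hx := h.hx
    rcases le_or_gt k x with hk | hk
    · have := NN_hi_big (inj_neg hκ) h hk
      left; omega
    · have := NN_hi_small (inj_neg hκ) h hk
      left; omega

end Vale.Agent.P040.All
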