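import Vale.Agent.P040.Cut.Count

/-!
# Cut certificates with features indexed by a finite set

`zar_of_feat` is the version of `Cut.zar_of_cert` in which the two-valued features are indexed by
an arbitrary finset instead of the bits of a natural number.
-/

namespace Vale.Agent.P040.All

open Finset Vale.Agent.P040.Cut

variable {m n : ℕ}

/-- Core counting lemma: if the blue vertices carry two-valued features `Φ f`, `f ∈ I`, such that
two blue vertices never agree in more features than the number of crossings between their stars,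
then the drawing has at least `|I| · Z(n)` crossings. -/
theorem zar_of_feat_core {ι : Type*} (I : Finset ι) (D : TwoPageDrawing m n)
    (Φ : ι → Fin n → Bool)
    (h : ∀ j j' : Fin n, j < j' → (I.filter fun f => Φ f j = Φ f j').card ≤ pairCross D j j') :
    I.card * ((n / 2) * ((n - 1) / 2)) ≤ D.crossings := by
  classical
  have h1 : ∀ p ∈ (univ : Finset (Fin n × Fin n)).filter (fun p => p.1 < p.2),
      (∑ f ∈ I, if Φ f p.1 = Φ f p.2 then 1 else 0) ≤ pairCross D p.1 p.2 := by
    intro p hp
    have hlt : p.1 < p.2 := (mem_filter.mp hp).2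
    have := h p.1 p.2 hlt
    rwa [card_filter] at this
  have h2 : ∀ f ∈ I, (n / 2) * ((n - 1) / 2) ≤
      ∑ p ∈ (univ : Finset (Fin n × Fin n)).filter (fun p => p.1 < p.2),
        if Φ f p.1 = Φ f p.2 then 1 else 0 := by
    intro f _
    refine (mono_pairs n (fun j => Φ f j)).trans (le_of_eq ?_)
    rw [card_filter, sum_filter]
    refine sum_congr rfl fun p _ => ?_
    by_cases h : p.1 < p.2 <;> simp [h]
  calc I.card * ((n / 2) * ((n - 1) / 2)) = ∑ _f ∈ I, (n / 2) * ((n - 1) / 2) := by simp
    _ ≤ ∑ f ∈ I, ∑ p ∈ (univ : Finset (Fin n × Fin n)).filter (fun p => p.1 < p.2),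
        (if Φ f p.1 = Φ f p.2 then 1 else 0) := sum_le_sum h2
    _ = ∑ p ∈ (univ : Finset (Fin n × Fin n)).filter (fun p => p.1 < p.2), ∑ f ∈ I,
        (if Φ f p.1 = Φ f p.2 then 1 else 0) := sum_comm
    _ ≤ ∑ p ∈ (univ : Finset (Fin n × Fin n)).filter (fun p => p.1 < p.2),
        pairCross D p.1 p.2 := sum_le_sum h1
    _ ≤ D.crossings := sum_pairCross_le D

/-- Cut certificate with features indexed by a finset, in terms of the types `(gap, code)`. -/
theorem zar_of_feat {ι : Type*} [DecidableEq ι] (I : Finset ι) (Φ : ι → ℕ → ℕ → Bool)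
    (h : ∀ g g', g ≤ g' → g' ≤ m → ∀ s < 2 ^ m, ∀ l < 2 ^ m,
      (I.filter fun f => Φ f g s = Φ f g' l).card ≤ crN m g s g' l)
    (D : TwoPageDrawing m n) :
    I.card * ((n / 2) * ((n - 1) / 2)) ≤ D.crossings := by
  refine zar_of_feat_core I D (fun f j => Φ f (gap D j) (code D j)) ?_
  intro j j' hlt
  rw [pairCross_eq D hlt]
  exact h (gap D j) (gap D j') (gap_mono D hlt) (gap_le D j') (code D j) (code_lt D j)
    (code D j') (code_lt D j')

end Vale.Agent.P040.All
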