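import Vale.Agent.P040.All.Rot
import Vale.Agent.P040.All.Ext

/-! # The five stage sequences (rows S1 - S20)

All rows here are finite case distinctions followed by linear arithmetic:
`simp only [key0, key1, …, up, dn, pkey]`, `split_ifs`, `omega` (introduce
`cases hs : s.testBit x` etc. first if `split_ifs` gets confused). -/

namespace Vale.Agent.P040.All

open Finset Vale.Agent.P040.Cut

variable {k g g' s l : ℕ}

/-- (S1) -/
lemma inj_pkey (hg : g ≤ 2 * k + 1) : Inj (2 * k + 1) (pkey k g s) := by
  intro x hx y hy h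
  simp only [pkey] at h
  split_ifs at h <;> omega

/-- (S2) -/
lemma inj_key0 : Inj (2 * k + 1) (key0 k g g' s l) := by
  intro x hx y hy h
  simp only [key0, up, dn] at h
  split_ifs at h <;> omega

/-- (S3) -/
lemma inj_key1 : Inj (2 * k + 1) (key1 k g g' s l) := by
  intro x hx y hy h
  simp only [key1, up, dn] at h
  split_ifs at h <;> omega

/-- (S4) -/
lemma inj_key2 : Inj (2 * k + 1) (key2 k g g' s l) := by
  intro x hx y hy h
  simp only [key2, up, dn] at h
  split_ifs at h <;> omega

/-- (S5) -/
lemma inj_key3 : Inj (2 * k + 1) (key3 k g g' s l) := by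
  intro x hx y hy h
  simp only [key3, up, dn] at h
  split_ifs at h <;> omega

/-- (S6) -/
lemma inj_key4 : Inj (2 * k + 1) (key4 k g g' s l) := by
  intro x hx y hy h
  simp only [key4, up, dn] at h
  split_ifs at h <;> omega

/-- (S7) `pkey k g s` is `key0` with the initial block `D.M` moved to the end. -/
lemma rot0 (hg : g ≤ g') (hg' : g' ≤ 2 * k + 1) :
    Rot (2 * k + 1) (key0 k g g' s l) (pkey k g s)
      (fun x => g ≤ x ∧ x < g' ∧ s.testBit x = false) := by
  constructor
  · intro x hx y hy hAx hAy
    obtain ⟨a1, a2, a3⟩ := hAx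
    obtain ⟨b1, b2, b3⟩ := hAy
    simp only [key0, pkey, up, dn, a3, b3, Bool.false_eq_true, ↓reduceIte]
    split_ifs <;> first | omega | (constructor <;> intro _ <;> omega)
  · intro x hx y hy hAx hAy
    cases hsx : s.testBit x <;> cases hsy : s.testBit y <;>
      simp only [hsx, hsy, and_true, and_false, not_and, not_lt, not_false_eq_true,
        Bool.true_eq_false] at hAx hAy <;>
      simp only [key0, pkey, up, dn, hsx, hsy, Bool.false_eq_true, ↓reduceIte] <;>
      split_ifs <;> first | omega | (constructor <;> intro _ <;> omega)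
  · intro x hx y hy hAx hAy
    obtain ⟨a1, a2, a3⟩ := hAx
    cases hsy : s.testBit y <;>
      simp only [hsy, and_true, and_false, not_and, not_lt, not_false_eq_true,
        Bool.true_eq_false] at hAy <;>
      simp only [key0, pkey, up, dn, a3, hsy, Bool.false_eq_true, ↓reduceIte] <;>
      split_ifs <;> first | omega | (constructor <;> omega)

/-- (S8) `key4` is the reversal of `pkey k g' l` with the initial block `D'.R, D'.L` moved to the
end. -/
lemma rot4 (hg : g ≤ g') (hg' : g' ≤ 2 * k + 1) :
    Rot (2 * k + 1) (fun y => - pkey k g' l y) (key4 k g g' s l)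
      (fun x => l.testBit x = false ∧ (x < g ∨ g' ≤ x)) := by
  constructor
  · intro x hx y hy hAx hAy
    obtain ⟨hx1, hx2⟩ := hAx
    obtain ⟨hy1, hy2⟩ := hAy
    simp only [key4, pkey, up, dn, hx1, hy1, Bool.false_eq_true, if_false]
    split_ifs <;> omega
  · intro x hx y hy hAx hAy
    cases hx1 : l.testBit x <;> cases hy1 : l.testBit y <;>
      simp only [hx1, hy1, true_and, false_and, not_false_eq_true, not_or, not_lt, not_le,
        Bool.true_eq_false] at hAx hAy <;>
      simp only [key4, pkey, up, dn, hx1, hy1, Bool.false_eq_true, if_false, if_true] <;>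
      split_ifs <;> omega
  · intro x hx y hy hAx hAy
    obtain ⟨hx1, hx2⟩ := hAx
    cases hy1 : l.testBit y <;>
      simp only [hy1, true_and, false_and, not_false_eq_true, not_or, not_lt, not_le,
        Bool.true_eq_false] at hAy <;>
      simp only [key4, pkey, up, dn, hx1, hy1, Bool.false_eq_true, if_false, if_true] <;>
      split_ifs <;> omega

/-- (S9) `x ∈ U'.L`: in `key2` the smaller elements come right after `x`. -/
lemma blk2_U (hg : g ≤ g') (hg' : g' ≤ 2 * k + 1) {x : ℕ} (hx : x < g)
    (hl : l.testBit x = true) : Blk (2 * k + 1) (key2 k g g' s l) x (fun y => y < x) := by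
  have hkx : key2 k g g' s l x = dn k 3 x := by
    simp only [key2, if_pos hx, hl, if_true]
  refine ⟨by omega, by omega, ?_, ?_⟩
  · intro y hy hyx
    rw [hkx]
    have hyg : y < g := by omega
    simp only [key2, if_pos hyg, up, dn]
    split_ifs <;> omega
  · intro y hy hyx z hz hzx hxz
    rw [hkx] at hxz
    have hyg : y < g := by omega
    simp only [key2, if_pos hyg, up, dn] at hxz ⊢
    split_ifs at hxz ⊢ <;> omega

/-- (S10) `x ∈ D'.L`: in `key2` the smaller elements come right before `x`. -/
lemma blk2_D (hg : g ≤ g') (hg' : g' ≤ 2 * k + 1) {x : ℕ} (hx : x < g)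
    (hl : l.testBit x = false) :
    Blk (2 * k + 1) (fun y => - key2 k g g' s l y) x (fun y => y < x) := by
  refine ⟨by omega, by omega, ?_, ?_⟩
  · intro y hy hyx
    have hyg : y < g := by omega
    simp only [key2, up, dn, hx, hyg, if_true, hl]
    cases hly : l.testBit y <;> simp <;> omega
  · intro y hy hyx z hz hzx hxz
    have hyg : y < g := by omega
    simp only [key2, up, dn, hx, hyg, if_true, hl] at hxz ⊢
    cases hly : l.testBit y <;> cases hlz : l.testBit z <;> cases hsz : s.testBit z <;>
      simp only [hlz, hsz] at hxz ⊢ <;> split_ifs at hxz ⊢ <;> simp at hxz ⊢ <;> omega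

/-- (S11) `x ∈ U.R`: in `key3` the larger elements come right after `x`. -/
lemma blk3_U (hg : g ≤ g') {x : ℕ} (hx : g' ≤ x) (hx' : x < 2 * k + 1)
    (hs : s.testBit x = true) : Blk (2 * k + 1) (key3 k g g' s l) x (fun y => x < y) := by
  have hkx : key3 k g g' s l x = up k 3 x := by
    simp only [key3]
    rw [if_neg (by omega), if_neg (by omega), if_pos hs]
  refine ⟨hx', lt_irrefl x, ?_, ?_⟩
  · intro y hy hxy
    rw [hkx]
    simp only [key3, up, dn]
    split_ifs <;> omega
  · intro y hy hxy z hz hzx hxz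
    rw [hkx] at hxz
    simp only [key3, up, dn] at hxz ⊢
    split_ifs at hxz ⊢ <;> omega

/-- (S12) `x ∈ D.R`: in `key3` the larger elements come right before `x`. -/
lemma blk3_D (hg : g ≤ g') {x : ℕ} (hx : g' ≤ x) (hx' : x < 2 * k + 1)
    (hs : s.testBit x = false) :
    Blk (2 * k + 1) (fun y => - key3 k g g' s l y) x (fun y => x < y) := by
  have hx1 : ¬ x < g := by omega
  have hx2 : ¬ x < g' := by omega
  refine ⟨by omega, by omega, ?_, ?_⟩
  · intro y hy hyx
    have hy1 : ¬ y < g := by omega
    have hy2 : ¬ y < g' := by omega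
    simp only [key3, up, dn, hx1, hx2, hy1, hy2, if_false, hs]
    cases hsy : s.testBit y <;> simp <;> omega
  · intro y hy hyx z hz hzx hxz
    have hy1 : ¬ y < g := by omega
    have hy2 : ¬ y < g' := by omega
    simp only [key3, up, dn, hx1, hx2, hy1, hy2, if_false, hs] at hxz ⊢
    cases hsy : s.testBit y <;> cases hlz : l.testBit z <;> cases hsz : s.testBit z <;>
      simp only [hlz, hsz] at hxz ⊢ <;> split_ifs at hxz ⊢ <;> simp at hxz ⊢ <;> omega

/-- indicator of a discordant pair -/
def dsc (κ κ' : ℕ → ℤ) (x y : ℕ) : ℕ := if (κ x < κ y ↔ κ' x < κ' y) then 0 else 1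

/-- indicator of a crossing of the edges `i b` and `i' b'` -/
def tt (g g' s l i i' : ℕ) : ℕ :=
  if altB i i' g g' && (s.testBit i == l.testBit i') then 1 else 0

/-- the four stages together, at the pair `x < y` -/
def dsc4 (k g g' s l x y : ℕ) : ℕ :=
  dsc (key0 k g g' s l) (key1 k g g' s l) x y + dsc (key1 k g g' s l) (key2 k g g' s l) x y +
    dsc (key2 k g g' s l) (key3 k g g' s l) x y + dsc (key3 k g g' s l) (key4 k g g' s l) x y

/-- (S13) both in `L` -/
lemma stage_LL {x y : ℕ} (hg : g ≤ g') (hxy : x < y) (hy : y < g) (hn : y < 2 * k + 1) :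
    dsc4 k g g' s l x y ≤ tt g g' s l x y + tt g g' s l y x := by
  have h1 : x < g := by omega
  have h2 : ¬ y < x := by omega
  unfold dsc4 dsc tt altB key0 key1 key2 key3 key4 up dn
  cases hsx : s.testBit x <;> cases hsy : s.testBit y <;> cases hlx : l.testBit x <;>
    cases hly : l.testBit y <;>
  simp only [h1, hy, hxy, h2, if_true, if_false, decide_true, decide_false, Bool.and_true, Bool.and_false,
    Bool.true_and, Bool.false_and, beq_self_eq_true, Bool.false_eq_true, reduceCtorEq, beq_iff_eq] <;>
  split_ifs <;> omega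

/-- (S14) `x ∈ L`, `y ∈ M` -/
lemma stage_LM {x y : ℕ} (hx : x < g) (hy : g ≤ y) (hy' : y < g') (hn : y < 2 * k + 1) :
    dsc4 k g g' s l x y ≤ tt g g' s l x y + tt g g' s l y x := by
  have h1 : ¬ y < g := by omega
  have h2 : ¬ y < x := by omega
  have h3 : x < y := by omega
  have h4 : ¬ g ≤ x := by omega
  unfold dsc4 dsc tt altB key0 key1 key2 key3 key4 up dn
  cases hsx : s.testBit x <;> cases hsy : s.testBit y <;> cases hlx : l.testBit x <;>
    cases hly : l.testBit y <;>
  simp only [h1, h2, h3, h4, hx, hy, hy', if_true, if_false, decide_true, decide_false, Bool.and_true, Bool.and_false,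
    Bool.true_and, Bool.false_and, beq_self_eq_true, Bool.false_eq_true, reduceCtorEq, beq_iff_eq] <;>
  split_ifs <;> omega

/-- (S15) `x ∈ L`, `y ∈ R` -/
lemma stage_LR {x y : ℕ} (hg : g ≤ g') (hx : x < g) (hy : g' ≤ y) (hn : y < 2 * k + 1) :
    dsc4 k g g' s l x y ≤ tt g g' s l x y + tt g g' s l y x := by
  have h1 : ¬ y < g := by omega
  have h2 : ¬ y < x := by omega
  have h3 : x < y := by omega
  have h4 : ¬ g ≤ x := by omega
  have h5 : ¬ y < g' := by omega
  unfold dsc4 dsc tt altB key0 key1 key2 key3 key4 up dn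
  cases hsx : s.testBit x <;> cases hsy : s.testBit y <;> cases hlx : l.testBit x <;>
    cases hly : l.testBit y <;>
  simp only [h1, h2, h3, h4, h5, hx, if_true, if_false, decide_true, decide_false, Bool.and_true, Bool.and_false,
    Bool.true_and, Bool.false_and, Bool.or_true, Bool.or_false, Bool.true_or, Bool.false_or, beq_self_eq_true, Bool.false_eq_true, reduceCtorEq, beq_iff_eq] <;>
  split_ifs <;> omega

/-- (S16) both in `M` -/
lemma stage_MM {x y : ℕ} (hx : g ≤ x) (hxy : x < y) (hy : y < g') (hn : y < 2 * k + 1) :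
    dsc4 k g g' s l x y ≤ tt g g' s l x y + tt g g' s l y x := by
  have hx1 : ¬ x < g := by omega
  have hx2 : x < g' := by omega
  have hy1 : ¬ y < g := by omega
  have hgy : g ≤ y := by omega
  have hyx : ¬ y < x := by omega
  cases hsx : s.testBit x <;> cases hsy : s.testBit y <;> cases hlx : l.testBit x <;>
    cases hly : l.testBit y <;>
    simp only [dsc4, dsc, tt, altB, key0, key1, key2, key3, key4, up, dn, hx1, hx2, hy1, hy, hsx,
      hsy, hlx, hly, hxy, hyx, hx, hgy, if_true, if_false] <;>
    (try simp) <;> (repeat' split_ifs) <;> (try omega)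

/-- (S17) `x ∈ M`, `y ∈ R` -/
lemma stage_MR {x y : ℕ} (hx : g ≤ x) (hx' : x < g') (hy : g' ≤ y) (hn : y < 2 * k + 1) :
    dsc4 k g g' s l x y ≤ tt g g' s l x y + tt g g' s l y x := by
  have h1 : ¬ y < g := by omega
  have h2 : ¬ y < x := by omega
  have h3 : x < y := by omega
  have h4 : ¬ x < g := by omega
  have h5 : ¬ y < g' := by omega
  have h6 : g ≤ y := by omega
  unfold dsc4 dsc tt altB key0 key1 key2 key3 key4 up dn
  cases hsx : s.testBit x <;> cases hsy : s.testBit y <;> cases hlx : l.testBit x <;>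
    cases hly : l.testBit y <;>
  simp only [h1, h2, h3, h4, h5, h6, hx, hx', if_true, if_false, decide_true, decide_false, Bool.and_true, Bool.and_false,
    Bool.true_and, Bool.false_and, Bool.or_true, Bool.or_false, Bool.true_or, Bool.false_or, beq_self_eq_true, Bool.false_eq_true, reduceCtorEq, beq_iff_eq] <;>
  split_ifs <;> omega

/-- (S18) both in `R` -/
lemma stage_RR {x y : ℕ} (hg : g ≤ g') (hx : g' ≤ x) (hxy : x < y) (hn : y < 2 * k + 1) :
    dsc4 k g g' s l x y ≤ tt g g' s l x y + tt g g' s l y x := by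
  have h1 : ¬ y < g := by omega
  have h2 : ¬ y < x := by omega
  have h4 : ¬ x < g := by omega
  have h5 : ¬ y < g' := by omega
  have h6 : ¬ x < g' := by omega
  unfold dsc4 dsc tt altB key0 key1 key2 key3 key4 up dn
  cases hsx : s.testBit x <;> cases hsy : s.testBit y <;> cases hlx : l.testBit x <;>
    cases hly : l.testBit y <;>
  simp only [h1, h2, hxy, h4, h5, h6, if_true, if_false, decide_true, decide_false, Bool.and_true, Bool.and_false,
    Bool.true_and, Bool.false_and, Bool.or_true, Bool.or_false, Bool.true_or, Bool.false_or, beq_self_eq_true, Bool.false_eq_true, reduceCtorEq, beq_iff_eq] <;>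
  split_ifs <;> omega

/-- (S19) from S13 - S18 -/
lemma stage_pt {x y : ℕ} (hg : g ≤ g') (hxy : x < y) (hn : y < 2 * k + 1) :
    dsc4 k g g' s l x y ≤ tt g g' s l x y + tt g g' s l y x := by
  by_cases hx : x < g
  · by_cases hy : y < g
    · exact stage_LL hg hxy hy hn
    · by_cases hy' : y < g'
      · exact stage_LM hx (by omega) hy' hn
      · exact stage_LR hg hx (by omega) hn
  · by_cases hx' : x < g'
    · by_cases hy' : y < g'
      · exact stage_MM (by omega) hxy hy' hn
      · exact stage_MR (by omega) hx' (by omega) hn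
    · exact stage_RR hg (by omega) hxy hn

/-- (S20) `card_filter`, `sum_filter`. -/
lemma card_disc_eq (n : ℕ) (κ κ' : ℕ → ℤ) :
    (Disc n κ κ').card =
      ∑ q ∈ ((range n) ×ˢ (range n)).filter (fun q => q.1 < q.2), dsc κ κ' q.1 q.2 := by
  have h : Disc n κ κ' = (((range n) ×ˢ (range n)).filter (fun q => q.1 < q.2)).filter
      (fun q => ¬ (κ q.1 < κ q.2 ↔ κ' q.1 < κ' q.2)) := by
    unfold Disc
    rw [filter_filter]
  rw [h, card_filter]
  refine sum_congr rfl (fun q _ => ?_)
  unfold dsc
  by_cases hq : (κ q.1 < κ q.2 ↔ κ' q.1 < κ' q.2)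
  · rw [if_pos hq, if_neg (not_not.mpr hq)]
  · rw [if_neg hq, if_pos hq]

/-- (S21) `crN = ∑_{(i,i')} tt i i'` (`sum_product'`); split the square into `i < i'`, `i' < i`
(image of the first under the swap) and the diagonal (drop it). -/
lemma crN_ge (m : ℕ) :
    ∑ q ∈ ((range m) ×ˢ (range m)).filter (fun q => q.1 < q.2),
      (tt g g' s l q.1 q.2 + tt g g' s l q.2 q.1) ≤ crN m g s g' l := by
  have h0 : crN m g s g' l = ∑ q ∈ (range m) ×ˢ (range m), tt g g' s l q.1 q.2 := by
    unfold crN tt
    rw [sum_product]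
  have h1 : ∑ q ∈ ((range m) ×ˢ (range m)).filter (fun q => q.1 < q.2), tt g g' s l q.2 q.1 =
      ∑ q ∈ ((range m) ×ˢ (range m)).filter (fun q => q.2 < q.1), tt g g' s l q.1 q.2 := by
    refine sum_bij (fun q _ => (q.2, q.1)) ?_ ?_ ?_ ?_
    · intro q hq
      simp only [mem_filter, mem_product, mem_range] at hq ⊢
      exact ⟨⟨hq.1.2, hq.1.1⟩, hq.2⟩
    · intro a _ b _ h
      simp only [Prod.mk.injEq] at h
      exact Prod.ext h.2 h.1
    · intro b hb
      simp only [mem_filter, mem_product, mem_range] at hb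
      refine ⟨(b.2, b.1), ?_, rfl⟩
      simp only [mem_filter, mem_product, mem_range]
      exact ⟨⟨hb.1.2, hb.1.1⟩, hb.2⟩
    · intro q _
      rfl
  rw [sum_add_distrib, h1, h0, ← sum_union]
  · exact sum_le_sum_of_subset (union_subset (filter_subset _ _) (filter_subset _ _))
  · rw [disjoint_left]
    intro q h2 h3
    simp only [mem_filter] at h2 h3
    omega

/-- (S22) from S19 - S21 (`sum_add_distrib`, `sum_le_sum`). -/
lemma disc_sum_le (hg : g ≤ g') :
    (Disc (2 * k + 1) (key0 k g g' s l) (key1 k g g' s l)).card +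
      (Disc (2 * k + 1) (key1 k g g' s l) (key2 k g g' s l)).card +
      (Disc (2 * k + 1) (key2 k g g' s l) (key3 k g g' s l)).card +
      (Disc (2 * k + 1) (key3 k g g' s l) (key4 k g g' s l)).card ≤
    crN (2 * k + 1) g s g' l := by
  refine le_trans ?_ (crN_ge (g := g) (g' := g') (s := s) (l := l) (2 * k + 1))
  rw [card_disc_eq, card_disc_eq, card_disc_eq, card_disc_eq, ← sum_add_distrib,
    ← sum_add_distrib, ← sum_add_distrib]
  refine sum_le_sum fun q hq => ?_
  rw [mem_filter, mem_product, mem_range, mem_range] at hq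
  exact stage_pt hg hq.2 hq.1.2

end Vale.Agent.P040.All
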