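import Vale.Agent.P040.All.Defs

/-! # Thermometer codes and the index set (rows T1 - T5) -/

namespace Vale.Agent.P040.All

open Finset

/-- (T1) both filled from the bottom: the cells `τ` with `min a b ≤ τ < max a b` disagree.
(The agreeing cells lie in `range w \ Ico (min a b) (max a b)`.) -/
lemma therm_bb {w a b : ℕ} (ha : a ≤ w) (hb : b ≤ w) :
    ((range w).filter fun τ => decide (τ < a) = decide (τ < b)).card + (a - b) + (b - a) ≤ w := by
  have hsub : ((range w).filter fun τ => decide (τ < a) = decide (τ < b)) ⊆
      range w \ Ico (min a b) (max a b) := by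
    intro τ hτ
    simp only [mem_filter, mem_range, decide_eq_decide] at hτ
    simp only [mem_sdiff, mem_range, mem_Ico, not_and, not_lt]
    refine ⟨hτ.1, fun h => ?_⟩
    by_contra hc
    push_neg at hc
    rcases le_total a b with hab | hab
    · rw [min_eq_left hab] at h
      rw [max_eq_right hab] at hc
      have := hτ.2.2 hc
      omega
    · rw [min_eq_right hab] at h
      rw [max_eq_left hab] at hc
      have := hτ.2.1 hc
      omega
  have hc := card_le_card hsub
  have hsub2 : Ico (min a b) (max a b) ⊆ range w := by
    intro τ hτ
    simp only [mem_Ico] at hτ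
    simp only [mem_range]
    have : max a b ≤ w := max_le ha hb
    omega
  rw [card_sdiff_of_subset hsub2, card_range, Nat.card_Ico] at hc
  rcases le_total a b with hab | hab
  · rw [min_eq_left hab, max_eq_right hab] at hc
    omega
  · rw [min_eq_right hab, max_eq_left hab] at hc
    omega

/-- (T2) both filled from the top. -/
lemma therm_tt {w a b : ℕ} (ha : a ≤ w) (hb : b ≤ w) :
    ((range w).filter fun τ => decide (w ≤ τ + a) = decide (w ≤ τ + b)).card + (a - b) + (b - a)
      ≤ w := by
  have hsub : ((range w).filter fun τ => decide (w ≤ τ + a) = decide (w ≤ τ + b)) ⊆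
      range w \ Ico (w - max a b) (w - min a b) := by
    intro τ hτ
    simp only [mem_filter, mem_range, decide_eq_decide] at hτ
    simp only [mem_sdiff, mem_range, mem_Ico, not_and, not_lt]
    refine ⟨hτ.1, fun h => ?_⟩
    by_contra hc
    push_neg at hc
    rcases le_total a b with hab | hab
    · rw [max_eq_right hab] at h
      rw [min_eq_left hab] at hc
      have := hτ.2.2 (by omega)
      omega
    · rw [max_eq_left hab] at h
      rw [min_eq_right hab] at hc
      have := hτ.2.1 (by omega)
      omega
  have hc := card_le_card hsub
  have hsub2 : Ico (w - max a b) (w - min a b) ⊆ range w := by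
    intro τ hτ
    simp only [mem_Ico] at hτ
    simp only [mem_range]
    omega
  rw [card_sdiff_of_subset hsub2, card_range, Nat.card_Ico] at hc
  rcases le_total a b with hab | hab
  · rw [min_eq_left hab, max_eq_right hab] at hc
    omega
  · rw [min_eq_right hab, max_eq_left hab] at hc
    omega

/-- (T3) one from the bottom, one from the top: the agreeing cells are `Ico a (w - b)` if
`a + b ≤ w` and `Ico (w - b) a` otherwise. -/
lemma therm_bt {w a b : ℕ} (ha : a ≤ w) (hb : b ≤ w) :
    ((range w).filter fun τ => decide (τ < a) = decide (w ≤ τ + b)).card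
      ≤ (a + b - w) + (w - (a + b)) := by
  rcases le_total (a + b) w with hab | hab
  · have hsub : ((range w).filter fun τ => decide (τ < a) = decide (w ≤ τ + b)) ⊆
        Ico a (w - b) := by
      intro τ hτ
      simp only [mem_filter, mem_range, decide_eq_decide] at hτ
      simp only [mem_Ico]
      constructor
      · by_contra hc
        push_neg at hc
        have := hτ.2.1 hc
        omega
      · by_contra hc
        push_neg at hc
        have := hτ.2.2 (by omega)
        omega
    have hc := card_le_card hsub
    rw [Nat.card_Ico] at hc
    omega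
  · have hsub : ((range w).filter fun τ => decide (τ < a) = decide (w ≤ τ + b)) ⊆
        Ico (w - b) a := by
      intro τ hτ
      simp only [mem_filter, mem_range, decide_eq_decide] at hτ
      simp only [mem_Ico]
      constructor
      · by_contra hc
        push_neg at hc
        have := hτ.2.1 (by omega)
        omega
      · by_contra hc
        push_neg at hc
        have := hτ.2.2 (by omega)
        omega
    have hc := card_le_card hsub
    rw [Nat.card_Ico] at hc
    omega

/-- (T4) fibre-wise count (`card_filter`, `sum_product`, or `card_eq_sum_card_fiberwise`); note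
`wd k x ≤ k`. -/
lemma card_filter_II (k : ℕ) (P : ℕ × ℕ → Prop) [DecidablePred P] :
    ((II k).filter P).card =
      ∑ x ∈ range (2 * k + 1), ((range (wd k x)).filter fun τ => P (x, τ)).card := by
  unfold II
  rw [filter_filter, card_filter, sum_product]
  apply sum_congr rfl
  intro x _
  rw [← card_filter]
  congr 1
  ext τ
  simp only [mem_filter, mem_range]
  have hw : wd k x ≤ k := by unfold wd; omega
  constructor
  · rintro ⟨_, h2, h3⟩
    exact ⟨h2, h3⟩
  · rintro ⟨h2, h3⟩
    exact ⟨by omega, h2, h3⟩

/-- (T5a) `∑_{x ≤ 2k} min (x, 2k - x) = k²` (induction on `k`: `sum_range_succ` twice and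
`sum_range_succ'`, or split at `k`). -/
lemma sum_wd (k : ℕ) : ∑ x ∈ range (2 * k + 1), wd k x = k * k := by
  induction k with
  | zero => simp [wd]
  | succ k ih =>
    have e : 2 * (k + 1) + 1 = (2 * k + 1) + 1 + 1 := by ring
    rw [e, sum_range_succ', sum_range_succ]
    have h1 : ∀ x ∈ range (2 * k + 1), wd (k + 1) (x + 1) = wd k x + 1 := by
      intro x hx
      rw [mem_range] at hx
      unfold wd
      omega
    rw [sum_congr rfl h1, sum_add_distrib, ih]
    have h2 : wd (k + 1) (2 * k + 1 + 1) = 0 := by unfold wd; omega
    have h3 : wd (k + 1) 0 = 0 := by unfold wd; omega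
    rw [h2, h3]
    simp only [sum_const, card_range, smul_eq_mul]
    ring

/-- (T5) from T4 (with `P = fun _ => True`) and T5a. -/
lemma card_II (k : ℕ) : (II k).card = k * k := by
  have h := card_filter_II k (fun _ => True)
  simp only [filter_true, card_range] at h
  rw [h, sum_wd]

end Vale.Agent.P040.All
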