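import Vale.Agent.P040.All.Kendall
import Vale.Agent.P040.All.Stage
import Vale.Agent.P040.All.Therm

/-! # Assembly (rows Z1 - Z9) -/

namespace Vale.Agent.P040.All

open Finset Vale.Agent.P040.Cut

variable {k g g' s l : ℕ}

/-- total variation of `N_x` along the four stages -/
def tv (k g g' s l x : ℕ) : ℤ :=
  |(NN k (key0 k g g' s l) x : ℤ) - NN k (key1 k g g' s l) x| +
  |(NN k (key1 k g g' s l) x : ℤ) - NN k (key2 k g g' s l) x| +
  |(NN k (key2 k g g' s l) x : ℤ) - NN k (key3 k g g' s l) x| +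
  |(NN k (key3 k g g' s l) x : ℤ) - NN k (key4 k g g' s l) x|

/-- (Z1) `NN_rot` with `rot0`. -/
lemma NN_key0 (hg : g ≤ g') (hg' : g' ≤ 2 * k + 1) {x : ℕ} (hx : x < 2 * k + 1) :
    NN k (key0 k g g' s l) x = NN k (pkey k g s) x := by
  exact (NN_rot (rot0 (s := s) (l := l) hg hg') hx).symm

/-- (Z2) `NN_rot` with `rot4`, then `NN_neg` (`inj_pkey`). -/
lemma NN_key4 (hg : g ≤ g') (hg' : g' ≤ 2 * k + 1) {x : ℕ} (hx : x < 2 * k + 1) :
    NN k (key4 k g g' s l) x + NN k (pkey k g' l) x = 2 * k - x := by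
  rw [NN_rot (rot4 (s := s) (l := l) hg hg') hx]
  exact NN_neg (inj_pkey hg') hx

/-- (Z3) `NN_ge`, `NN_le_k`, `NN_le_sub`, `inj_pkey`; unfold `xi`, `wd`; `omega`. -/
lemma xi_spec (hg : g ≤ 2 * k + 1) {x : ℕ} (hx : x < 2 * k + 1) :
    xi k g s x ≤ wd k x ∧ NN k (pkey k g s) x = xi k g s x + (k - x) := by
  have hi : Inj (2 * k + 1) (pkey k g s) := inj_pkey hg
  have h1 := NN_ge hi hx
  have h2 := NN_le_k hi hx
  have h3 := NN_le_sub (k := k) (κ := pkey k g s) x
  unfold xi wd
  omega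

/-- (Z4) `x ∈ L`: both blue vertices are right of `x` (`Phi` = filled from the top, `therm_tt`);
`NN (key2) x` is extreme (`NN_extreme`, `blk2_U`, `blk2_D`, `inj_key2`); Z1 - Z3.  For the absolute
values use `le_abs_self`, `neg_abs_le` and `omega`/`linarith` (unfold `wd`). -/
lemma agree_L (hg : g ≤ g') (hg' : g' ≤ 2 * k + 1) {x : ℕ} (hx : x < g) :
    (((range (wd k x)).filter fun τ => Phi k (x, τ) g s = Phi k (x, τ) g' l).card : ℤ)
      ≤ tv k g g' s l x := by
  have hx2 : x < 2 * k + 1 := by omega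
  have h0 := NN_key0 (k := k) (g := g) (g' := g') (s := s) (l := l) hg hg' hx2
  have h4 := NN_key4 (k := k) (g := g) (g' := g') (s := s) (l := l) hg hg' hx2
  obtain ⟨ha, ha'⟩ := xi_spec (k := k) (g := g) (s := s) (by omega) hx2
  obtain ⟨hb, hb'⟩ := xi_spec (k := k) (g := g') (s := l) hg' hx2
  have hext : NN k (key2 k g g' s l) x = k - x ∨ NN k (key2 k g g' s l) x = min k (2 * k - x) := by
    apply NN_extreme inj_key2
    cases hl : l.testBit x
    · right; right; left; exact blk2_D hg hg' hx hl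
    · left; exact blk2_U hg hg' hx hl
  have ht := therm_tt ha hb
  have hfil : ((range (wd k x)).filter fun τ => Phi k (x, τ) g s = Phi k (x, τ) g' l) =
      ((range (wd k x)).filter fun τ =>
        decide (wd k x ≤ τ + xi k g s x) = decide (wd k x ≤ τ + xi k g' l x)) := by
    apply filter_congr
    intro τ _
    have h1 : ¬ g ≤ x := by omega
    have h2 : ¬ g' ≤ x := by omega
    simp only [Phi, h1, h2, if_false]
  rw [hfil]
  unfold tv
  have e1 := le_abs_self ((NN k (key0 k g g' s l) x : ℤ) - NN k (key1 k g g' s l) x)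
  have e1' := neg_abs_le ((NN k (key0 k g g' s l) x : ℤ) - NN k (key1 k g g' s l) x)
  have e2 := le_abs_self ((NN k (key1 k g g' s l) x : ℤ) - NN k (key2 k g g' s l) x)
  have e2' := neg_abs_le ((NN k (key1 k g g' s l) x : ℤ) - NN k (key2 k g g' s l) x)
  have e3 := le_abs_self ((NN k (key2 k g g' s l) x : ℤ) - NN k (key3 k g g' s l) x)
  have e3' := neg_abs_le ((NN k (key2 k g g' s l) x : ℤ) - NN k (key3 k g g' s l) x)
  have e4 := le_abs_self ((NN k (key3 k g g' s l) x : ℤ) - NN k (key4 k g g' s l) x)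
  have e4' := neg_abs_le ((NN k (key3 k g g' s l) x : ℤ) - NN k (key4 k g g' s l) x)
  generalize |(NN k (key0 k g g' s l) x : ℤ) - NN k (key1 k g g' s l) x| = A1 at *
  generalize |(NN k (key1 k g g' s l) x : ℤ) - NN k (key2 k g g' s l) x| = A2 at *
  generalize |(NN k (key2 k g g' s l) x : ℤ) - NN k (key3 k g g' s l) x| = A3 at *
  generalize |(NN k (key3 k g g' s l) x : ℤ) - NN k (key4 k g g' s l) x| = A4 at *
  unfold wd at *
  rcases hext with hext | hext <;> omega

/-- (Z5) `x ∈ M`: `b` is left of `x`, `b'` right of `x` (`therm_bt`); triangle inequality;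
Z1 - Z3. -/
lemma agree_M (hg' : g' ≤ 2 * k + 1) {x : ℕ} (hx : g ≤ x) (hx' : x < g') :
    (((range (wd k x)).filter fun τ => Phi k (x, τ) g s = Phi k (x, τ) g' l).card : ℤ)
      ≤ tv k g g' s l x := by
  have hgg : g ≤ g' := by omega
  have hx2 : x < 2 * k + 1 := by omega
  have h0 := NN_key0 (s := s) (l := l) hgg hg' hx2
  have h4 := NN_key4 (s := s) (l := l) hgg hg' hx2
  obtain ⟨ha, ha'⟩ := xi_spec (s := s) (g := g) (k := k) (by omega) hx2
  obtain ⟨hb, hb'⟩ := xi_spec (s := l) (g := g') (k := k) hg' hx2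
  have hfil : ((range (wd k x)).filter fun τ => Phi k (x, τ) g s = Phi k (x, τ) g' l) =
      ((range (wd k x)).filter fun τ =>
        decide (τ < xi k g s x) = decide (wd k x ≤ τ + xi k g' l x)) := by
    apply filter_congr
    intro τ _
    simp only [Phi, if_pos hx, if_neg (not_le.mpr hx')]
  rw [hfil]
  have ht := therm_bt ha hb
  have htri : |(NN k (key0 k g g' s l) x : ℤ) - NN k (key4 k g g' s l) x| ≤ tv k g g' s l x := by
    unfold tv
    have e1 := abs_sub_le (NN k (key0 k g g' s l) x : ℤ) (NN k (key1 k g g' s l) x)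
      (NN k (key4 k g g' s l) x)
    have e2 := abs_sub_le (NN k (key1 k g g' s l) x : ℤ) (NN k (key2 k g g' s l) x)
      (NN k (key4 k g g' s l) x)
    have e3 := abs_sub_le (NN k (key2 k g g' s l) x : ℤ) (NN k (key3 k g g' s l) x)
      (NN k (key4 k g g' s l) x)
    linarith
  refine le_trans ?_ htri
  have h1 := le_abs_self ((NN k (key0 k g g' s l) x : ℤ) - NN k (key4 k g g' s l) x)
  have h2 := neg_abs_le ((NN k (key0 k g g' s l) x : ℤ) - NN k (key4 k g g' s l) x)
  unfold wd at ht ha hb ⊢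
  omega

/-- (Z6) `x ∈ R`: both blue vertices are left of `x` (`therm_bb`); `NN (key3) x` is extreme
(`NN_extreme`, `blk3_U`, `blk3_D`, `inj_key3`); Z1 - Z3. -/
lemma agree_R (hg : g ≤ g') (hg' : g' ≤ 2 * k + 1) {x : ℕ} (hx : g' ≤ x) (hx' : x < 2 * k + 1) :
    (((range (wd k x)).filter fun τ => Phi k (x, τ) g s = Phi k (x, τ) g' l).card : ℤ)
      ≤ tv k g g' s l x := by
  have hgx : g ≤ x := hg.trans hx
  have hg2 : g ≤ 2 * k + 1 := hg.trans hg'
  obtain ⟨ha, hNa⟩ := xi_spec (s := s) hg2 hx'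
  obtain ⟨hb, hNb⟩ := xi_spec (s := l) hg' hx'
  have h0 := NN_key0 (s := s) (l := l) hg hg' hx'
  have h4 := NN_key4 (s := s) (l := l) hg hg' hx'
  have hth := therm_bb ha hb
  have hfil : ((range (wd k x)).filter fun τ => Phi k (x, τ) g s = Phi k (x, τ) g' l) =
      (range (wd k x)).filter fun τ => decide (τ < xi k g s x) = decide (τ < xi k g' l x) := by
    apply filter_congr
    intro τ _
    simp only [Phi, if_pos hgx, if_pos hx]
  have hext : NN k (key3 k g g' s l) x = k - x ∨
      NN k (key3 k g g' s l) x = min k (2 * k - x) := by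
    apply NN_extreme inj_key3
    cases hs : s.testBit x
    · right; right; right; exact blk3_D hg hx hx' hs
    · right; left; exact blk3_U hg hx hx' hs
  rw [hfil]
  unfold tv
  have e1 := le_abs_self ((NN k (key0 k g g' s l) x : ℤ) - NN k (key1 k g g' s l) x)
  have e1' := neg_abs_le ((NN k (key0 k g g' s l) x : ℤ) - NN k (key1 k g g' s l) x)
  have e2 := le_abs_self ((NN k (key1 k g g' s l) x : ℤ) - NN k (key2 k g g' s l) x)
  have e2' := neg_abs_le ((NN k (key1 k g g' s l) x : ℤ) - NN k (key2 k g g' s l) x)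
  have e3 := le_abs_self ((NN k (key2 k g g' s l) x : ℤ) - NN k (key3 k g g' s l) x)
  have e3' := neg_abs_le ((NN k (key2 k g g' s l) x : ℤ) - NN k (key3 k g g' s l) x)
  have e4 := le_abs_self ((NN k (key3 k g g' s l) x : ℤ) - NN k (key4 k g g' s l) x)
  have e4' := neg_abs_le ((NN k (key3 k g g' s l) x : ℤ) - NN k (key4 k g g' s l) x)
  generalize |(NN k (key0 k g g' s l) x : ℤ) - NN k (key1 k g g' s l) x| = A1 at *
  generalize |(NN k (key1 k g g' s l) x : ℤ) - NN k (key2 k g g' s l) x| = A2 at *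
  generalize |(NN k (key2 k g g' s l) x : ℤ) - NN k (key3 k g g' s l) x| = A3 at *
  generalize |(NN k (key3 k g g' s l) x : ℤ) - NN k (key4 k g g' s l) x| = A4 at *
  unfold wd at *
  rcases hext with h3 | h3 <;> omega

/-- (Z7) `∑_x tv = DD01 + DD12 + DD23 + DD34 ≤` the four numbers of discordant pairs
(`DD_le_disc`, `inj_key0` …) `≤ crN` (`disc_sum_le`). -/
lemma sum_tv_le (hg : g ≤ g') :
    ∑ x ∈ range (2 * k + 1), tv k g g' s l x ≤ (crN (2 * k + 1) g s g' l : ℤ) := by
  have h01 := DD_le_disc (k := k) (inj_key0 (k := k) (g := g) (g' := g') (s := s) (l := l))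
    (inj_key1 (k := k) (g := g) (g' := g') (s := s) (l := l))
  have h12 := DD_le_disc (k := k) (inj_key1 (k := k) (g := g) (g' := g') (s := s) (l := l))
    (inj_key2 (k := k) (g := g) (g' := g') (s := s) (l := l))
  have h23 := DD_le_disc (k := k) (inj_key2 (k := k) (g := g) (g' := g') (s := s) (l := l))
    (inj_key3 (k := k) (g := g) (g' := g') (s := s) (l := l))
  have h34 := DD_le_disc (k := k) (inj_key3 (k := k) (g := g) (g' := g') (s := s) (l := l))
    (inj_key4 (k := k) (g := g) (g' := g') (s := s) (l := l))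
  have hd := disc_sum_le (k := k) (g := g) (g' := g') (s := s) (l := l) hg
  have hd' : ((Disc (2 * k + 1) (key0 k g g' s l) (key1 k g g' s l)).card : ℤ) +
      (Disc (2 * k + 1) (key1 k g g' s l) (key2 k g g' s l)).card +
      (Disc (2 * k + 1) (key2 k g g' s l) (key3 k g g' s l)).card +
      (Disc (2 * k + 1) (key3 k g g' s l) (key4 k g g' s l)).card ≤
      (crN (2 * k + 1) g s g' l : ℤ) := by exact_mod_cast hd
  have hsum : ∑ x ∈ range (2 * k + 1), tv k g g' s l x =
      DD k (key0 k g g' s l) (key1 k g g' s l) + DD k (key1 k g g' s l) (key2 k g g' s l) +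
      DD k (key2 k g g' s l) (key3 k g g' s l) + DD k (key3 k g g' s l) (key4 k g g' s l) := by
    simp only [tv, DD, Finset.sum_add_distrib]
  rw [hsum]
  linarith

/-- (Z8) **the cut certificate for all `k`**: `card_filter_II`, Z4 - Z6, Z7. -/
theorem feat_cert (k : ℕ) : ∀ g g', g ≤ g' → g' ≤ 2 * k + 1 → ∀ s < 2 ^ (2 * k + 1),
    ∀ l < 2 ^ (2 * k + 1),
    ((II k).filter fun f => Phi k f g s = Phi k f g' l).card ≤ crN (2 * k + 1) g s g' l := by
  intro g g' hg hg' s _ l _
  rw [card_filter_II]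
  have h1 : ((∑ x ∈ range (2 * k + 1),
      ((range (wd k x)).filter fun τ => Phi k (x, τ) g s = Phi k (x, τ) g' l).card : ℕ) : ℤ) ≤
      ∑ x ∈ range (2 * k + 1), tv k g g' s l x := by
    push_cast
    apply sum_le_sum
    intro x hx
    rw [mem_range] at hx
    by_cases h1 : x < g
    · exact agree_L hg hg' h1
    · by_cases h2 : x < g'
      · exact agree_M hg' (by omega) h2
      · exact agree_R hg hg' (by omega) hx
  have h2 := sum_tv_le (k := k) (s := s) (l := l) hg
  exact_mod_cast h1.trans h2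

end Vale.Agent.P040.All
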