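import Vale.Agent.P040.All.Pos

/-! # Followers (rows F1 - F9) -/

namespace Vale.Agent.P040.All

open Finset

variable {k : ℕ} {κ κ' : ℕ → ℤ}

/-- (F1) -/
lemma foll_asymm {p : ℕ → ℕ} {x y : ℕ} (hx : p x < 2 * k + 1) (hy : p y < 2 * k + 1)
    (hne : p x ≠ p y) : Foll k p y x ↔ ¬ Foll k p x y := by
  unfold Foll; omega

/-- (F2) the window of the `k` positions that follow the position `c` cyclically.
If `c ≤ k` the set is `Ioc c (c+k)`; otherwise it is `Ioc c (2k) ∪ range (c-k)`. -/
lemma card_window {c : ℕ} (hc : c < 2 * k + 1) :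
    ((range (2 * k + 1)).filter fun j => (c < j ∧ j ≤ c + k) ∨ j + k < c).card = k := by
  by_cases h : c ≤ k
  · have e : ((range (2 * k + 1)).filter fun j => (c < j ∧ j ≤ c + k) ∨ j + k < c) =
        Ioc c (c + k) := by
      ext j
      simp only [mem_filter, mem_range, mem_Ioc]
      omega
    rw [e, Nat.card_Ioc]
    omega
  · have e : ((range (2 * k + 1)).filter fun j => (c < j ∧ j ≤ c + k) ∨ j + k < c) =
        Ioc c (2 * k) ∪ range (c - k) := by
      ext j
      simp only [mem_filter, mem_range, mem_union, mem_Ioc]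
      omega
    have hd : Disjoint (Ioc c (2 * k)) (range (c - k)) := by
      rw [disjoint_left]
      intro j h1 h2
      simp only [mem_Ioc, mem_range] at h1 h2
      omega
    rw [e, card_union_of_disjoint hd, Nat.card_Ioc, card_range]
    omega

/-- (F3) every element has exactly `k` followers: `pos` maps the set bijectively onto the window of
`F2` (`pos_lt`, `pos_inj`, `pos_surj`; `Finset.card_bij` / `card_nbij`). -/
lemma card_foll (hκ : Inj (2 * k + 1) κ) {x : ℕ} (hx : x < 2 * k + 1) :
    ((range (2 * k + 1)).filter fun y => Foll k (pos (2 * k + 1) κ) x y).card = k := by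
  refine Eq.trans (card_bij (fun y _ => pos (2 * k + 1) κ y) ?_ ?_ ?_)
    (card_window (k := k) (c := pos (2 * k + 1) κ x) (pos_lt hx))
  · intro y hy
    rw [mem_filter, mem_range] at hy ⊢
    exact ⟨pos_lt hy.1, hy.2⟩
  · intro y hy z hz h
    rw [mem_filter, mem_range] at hy hz
    exact pos_inj hκ hy.1 hz.1 h
  · intro j hj
    rw [mem_filter, mem_range] at hj
    obtain ⟨y, hy, rfl⟩ := pos_surj hκ hj.1
    exact ⟨y, by rw [mem_filter, mem_range]; exact ⟨hy, hj.2⟩, rfl⟩

/-- (F4) from F3 (`card_le_card`). -/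
lemma NN_le_k (hκ : Inj (2 * k + 1) κ) {x : ℕ} (hx : x < 2 * k + 1) : NN k κ x ≤ k := by
  refine le_trans ?_ (le_of_eq (card_foll hκ hx))
  unfold NN NNp
  apply card_le_card
  intro y hy
  rw [mem_filter] at hy ⊢
  exact ⟨hy.1, hy.2.2⟩

/-- (F5) the filter is contained in `Ioc x (2k)`. -/
lemma NN_le_sub (x : ℕ) : NN k κ x ≤ 2 * k - x := by
  have h : NN k κ x ≤ (Ioc x (2 * k)).card := by
    unfold NN NNp
    apply card_le_card
    intro y hy
    rw [mem_filter, mem_range] at hy
    rw [mem_Ioc]
    omega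
  rwa [Nat.card_Ioc] at h

lemma card_gt (x : ℕ) : ((range (2 * k + 1)).filter fun y => x < y).card = 2 * k - x := by
  have : ((range (2 * k + 1)).filter fun y => x < y) = Finset.Ico (x + 1) (2 * k + 1) := by
    ext y
    simp only [mem_filter, mem_range, mem_Ico]
    omega
  rw [this, Nat.card_Ico]
  omega

/-- (F6) reversal: by `pos_neg`, `Foll` for `-κ` is `Foll` with `x`, `y` exchanged, i.e. (F1) the
negation; `card_filter_add_card_filter_not`-type argument on `{y | x < y} ∩ range (2k+1)`, which
has `2k - x` elements. -/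
lemma NN_neg (hκ : Inj (2 * k + 1) κ) {x : ℕ} (hx : x < 2 * k + 1) :
    NN k (fun y => - κ y) x + NN k κ x = 2 * k - x := by
  have hp : ∀ y < 2 * k + 1, pos (2 * k + 1) (fun y => - κ y) y + pos (2 * k + 1) κ y + 1
      = 2 * k + 1 := fun y hy => pos_neg hκ hy
  unfold NN NNp
  have h1 : ((range (2 * k + 1)).filter fun y => x < y ∧
        Foll k (pos (2 * k + 1) (fun y => - κ y)) x y) =
      (((range (2 * k + 1)).filter fun y => x < y).filter fun y =>
        ¬ Foll k (pos (2 * k + 1) κ) x y) := by
    rw [filter_filter]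
    apply filter_congr
    intro y hy
    have hy' := mem_range.mp hy
    constructor
    · rintro ⟨hxy, hF⟩
      refine ⟨hxy, ?_⟩
      have h1 := hp x hx
      have h2 := hp y hy'
      unfold Foll at hF ⊢
      omega
    · rintro ⟨hxy, hF⟩
      refine ⟨hxy, ?_⟩
      have h1 := hp x hx
      have h2 := hp y hy'
      have hne : pos (2 * k + 1) κ x ≠ pos (2 * k + 1) κ y := by
        intro h
        have := pos_inj hκ hx hy' h
        omega
      unfold Foll at hF ⊢
      omega
  have h2 : ((range (2 * k + 1)).filter fun y => x < y ∧ Foll k (pos (2 * k + 1) κ) x y) =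
      (((range (2 * k + 1)).filter fun y => x < y).filter fun y =>
        Foll k (pos (2 * k + 1) κ) x y) := by
    rw [filter_filter]
  rw [h1, h2, add_comm, Finset.card_filter_add_card_filter_not, card_gt]

/-- (F7) from F6, F4 for `-κ` (`inj_neg`). -/
lemma NN_ge (hκ : Inj (2 * k + 1) κ) {x : ℕ} (hx : x < 2 * k + 1) : k - x ≤ NN k κ x := by
  have h1 := NN_neg hκ hx
  have h2 := NN_le_k (inj_neg hκ) hx
  omega

/-- (F8) from `pos_congr`. -/
lemma NN_congr (h : ∀ x < 2 * k + 1, ∀ y < 2 * k + 1, (κ x < κ y ↔ κ' x < κ' y)) {x : ℕ}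
    (hx : x < 2 * k + 1) : NN k κ x = NN k κ' x := by
  unfold NN NNp
  congr 1
  apply filter_congr
  intro y hy
  rw [mem_range] at hy
  unfold Foll
  rw [pos_congr h hx, pos_congr h hy]

/-- (F9) `NN + #{y < x, Foll} = k` (split the set of F3 by `y < x`, `y = x` (not a follower),
`x < y`). -/
lemma NN_add_small (hκ : Inj (2 * k + 1) κ) {x : ℕ} (hx : x < 2 * k + 1) :
    NN k κ x + ((range x).filter fun y => Foll k (pos (2 * k + 1) κ) x y).card = k := by
  have h := card_foll hκ hx
  have hsplit : (range (2 * k + 1)).filter (fun y => Foll k (pos (2 * k + 1) κ) x y) =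
      (range (2 * k + 1)).filter (fun y => x < y ∧ Foll k (pos (2 * k + 1) κ) x y) ∪
        (range x).filter (fun y => Foll k (pos (2 * k + 1) κ) x y) := by
    ext y
    simp only [mem_filter, mem_union, mem_range]
    constructor
    · rintro ⟨hy, hf⟩
      rcases lt_trichotomy x y with h1 | h1 | h1
      · left
        exact ⟨hy, h1, hf⟩
      · subst h1
        exfalso
        unfold Foll at hf
        omega
      · right
        exact ⟨h1, hf⟩
    · rintro (⟨hy, _, hf⟩ | ⟨hy, hf⟩)
      · exact ⟨hy, hf⟩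
      · exact ⟨by omega, hf⟩
  have hdisj : Disjoint
      ((range (2 * k + 1)).filter (fun y => x < y ∧ Foll k (pos (2 * k + 1) κ) x y))
      ((range x).filter (fun y => Foll k (pos (2 * k + 1) κ) x y)) := by
    rw [disjoint_left]
    intro y h1 h2
    simp only [mem_filter, mem_range] at h1 h2
    omega
  rw [hsplit, card_union_of_disjoint hdisj] at h
  exact h

end Vale.Agent.P040.All
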