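import Vale.Agent.P040.All.Lip

/-! # `∑ |ΔN| ≤` number of discordant pairs (rows K1 - K7) -/

namespace Vale.Agent.P040.All

open Finset

variable {n k : ℕ} {κ κ' κ'' : ℕ → ℤ}

/-- (K1) the context of the Lipschitz lemma for an adjacent swap: `pos_adj`, `pos_sw`, `pos_lt`,
`pos_inj`, and `pos_surj` for `z` (position `pos b + k` if this is `< 2k+1`, else
`pos b + k - (2k+1)`). -/
lemma exists_lipCtx (hκ : Inj (2 * k + 1) κ) {a b : ℕ} (h : Adj (2 * k + 1) κ a b) :
    ∃ z, LipCtx k (pos (2 * k + 1) κ) (pos (2 * k + 1) (sw κ a b)) a b z := by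
  have hab := pos_adj hκ h
  have hbl : pos (2 * k + 1) κ b < 2 * k + 1 := pos_lt h.hb
  have hz : ∃ z < 2 * k + 1, pos (2 * k + 1) κ z = pos (2 * k + 1) κ b + k ∨
      pos (2 * k + 1) κ z + k + 1 = pos (2 * k + 1) κ b := by
    by_cases hc : pos (2 * k + 1) κ b + k < 2 * k + 1
    · obtain ⟨z, hz, hz'⟩ := pos_surj hκ hc
      exact ⟨z, hz, Or.inl hz'⟩
    · have hj : pos (2 * k + 1) κ b - (k + 1) < 2 * k + 1 := by omega
      obtain ⟨z, hz, hz'⟩ := pos_surj hκ hj
      exact ⟨z, hz, Or.inr (by omega)⟩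
  obtain ⟨z, hz, hz'⟩ := hz
  refine ⟨z, ⟨h.ha, h.hb, hz, fun x hx => pos_lt hx, fun x hx y hy e => pos_inj hκ hx hy e, hab,
    hz', ?_, ?_, ?_⟩⟩
  · rw [pos_sw h.ha h.hb, Equiv.swap_apply_left]
  · rw [pos_sw h.ha h.hb, Equiv.swap_apply_right]
  · intro x hxa hxb
    rw [pos_sw h.ha h.hb, Equiv.swap_apply_of_ne_of_ne hxa hxb]

/-- (K2) from K1 and L9. -/
lemma DD_sw_le_one (hκ : Inj (2 * k + 1) κ) {a b : ℕ} (h : Adj (2 * k + 1) κ a b) :
    DD k κ (sw κ a b) ≤ 1 := by
  obtain ⟨z, hz⟩ := exists_lipCtx hκ h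
  exact hz.sum_le_one

/-- (K3) `abs_sub_le`, `sum_le_sum`, `sum_add_distrib`. -/
lemma DD_triangle : DD k κ κ'' ≤ DD k κ κ' + DD k κ' κ'' := by
  unfold DD
  rw [← sum_add_distrib]
  exact sum_le_sum fun x _ => abs_sub_le _ _ _

/-- (K4) no discordant pair: same order (for `y < x` use injectivity), so `NN_congr`. -/
lemma DD_eq_zero (hκ : Inj (2 * k + 1) κ) (hκ' : Inj (2 * k + 1) κ')
    (h : Disc (2 * k + 1) κ κ' = ∅) : DD k κ κ' = 0 := by
  have key : ∀ x < 2 * k + 1, ∀ y < 2 * k + 1, x < y → (κ x < κ y ↔ κ' x < κ' y) := by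
    intro x hx y hy hxy
    by_contra hc
    have : (x, y) ∈ Disc (2 * k + 1) κ κ' := by
      simp only [Disc, mem_filter, mem_product, mem_range]
      exact ⟨⟨hx, hy⟩, hxy, hc⟩
    rw [h] at this
    exact absurd this (notMem_empty _)
  have all : ∀ x < 2 * k + 1, ∀ y < 2 * k + 1, (κ x < κ y ↔ κ' x < κ' y) := by
    intro x hx y hy
    rcases lt_trichotomy x y with hxy | hxy | hxy
    · exact key x hx y hy hxy
    · subst hxy; simp
    · have h1 := key y hy x hx hxy
      have n1 : κ x ≠ κ y := fun e => by have := hκ x hx y hy e; omega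
      have n2 : κ' x ≠ κ' y := fun e => by have := hκ' x hx y hy e; omega
      constructor
      · intro hlt
        have : ¬ κ' y < κ' x := fun hh => by have := h1.2 hh; omega
        omega
      · intro hlt
        have : ¬ κ y < κ x := fun hh => by have := h1.1 hh; omega
        omega
  unfold DD
  apply sum_eq_zero
  intro x hx
  rw [NN_congr all (mem_range.1 hx)]
  simp

/-- (K5a) auxiliary form: if `κ x < κ y` and `κ' y < κ' x` then there is such a pair which is
adjacent in `κ`.  Strong induction on `(κ y - κ x).toNat`: if some `z < n` has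
`κ x < κ z < κ y`, then `κ' z < κ' x` (use `(x,z)`) or `κ' x < κ' z` hence `κ' y < κ' z`
(use `(z,y)`); (`κ' z ≠ κ' x` by injectivity). -/
lemma exists_adj_aux (hκ' : Inj n κ') (d : ℕ) : ∀ x < n, ∀ y < n, κ x < κ y → κ' y < κ' x →
    (κ y - κ x).toNat ≤ d → ∃ a b, Adj n κ a b ∧ κ' b < κ' a := by
  induction d with
  | zero =>
    intro x hx y hy h1 h2 h3
    omega
  | succ d ih =>
    intro x hx y hy h1 h2 h3
    by_cases hz : ∃ z < n, κ x < κ z ∧ κ z < κ y
    · obtain ⟨z, hzn, hz1, hz2⟩ := hz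
      rcases lt_trichotomy (κ' z) (κ' x) with h | h | h
      · exact ih x hx z hzn hz1 h (by omega)
      · have := hκ' z hzn x hx h
        subst this
        omega
      · exact ih z hzn y hy hz2 (by omega) (by omega)
    · exact ⟨x, y, ⟨hx, hy, h1, fun z hzn hh => hz ⟨z, hzn, hh⟩⟩, h2⟩

/-- (K5) a discordant pair `(x,y)`, `x < y`, gives `κ x < κ y ∧ κ' y < κ' x` or the same with `x`,
`y` exchanged (injectivity); then K5a. -/
lemma exists_adj (hκ : Inj n κ) (hκ' : Inj n κ') (h : (Disc n κ κ').Nonempty) :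
    ∃ a b, Adj n κ a b ∧ κ' b < κ' a := by
  obtain ⟨⟨x, y⟩, hq⟩ := h
  simp only [Disc, mem_filter, mem_product, mem_range] at hq
  obtain ⟨⟨hx, hy⟩, hxy, hd⟩ := hq
  by_cases h1 : κ x < κ y
  · have h2 : ¬ κ' x < κ' y := fun h2 => hd ⟨fun _ => h2, fun _ => h1⟩
    have h3 : κ' x ≠ κ' y := fun e => by
      have := hκ' x hx y hy e
      omega
    exact exists_adj_aux hκ' _ x hx y hy h1 (by omega) le_rfl
  · have h2 : κ' x < κ' y := by
      by_contra h2
      exact hd ⟨fun h => absurd h h1, fun h => absurd h h2⟩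
    have h3 : κ x ≠ κ y := fun e => by
      have := hκ x hx y hy e
      omega
    exact exists_adj_aux hκ' _ y hy x hx (by omega) h2 le_rfl

/-- (K6a) the order of `sw κ a b` is the order of `κ` except on the pair `{a,b}`. -/
lemma sw_lt_iff (hκ : Inj n κ) {a b : ℕ} (h : Adj n κ a b) {x y : ℕ} (hx : x < n) (hy : y < n)
    (hxy : ¬ ((x = a ∧ y = b) ∨ (x = b ∧ y = a))) :
    sw κ a b x < sw κ a b y ↔ κ x < κ y := by
  have hab := h.hab
  have hne : a ≠ b := by rintro rfl; exact lt_irrefl _ hab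
  have key1 : ∀ z < n, z ≠ a → z ≠ b → (κ b < κ z ↔ κ a < κ z) := by
    intro z hz hza hzb
    have h1 := h.hadj z hz
    have h2 : κ z ≠ κ b := fun e => hzb (hκ z hz b h.hb e)
    constructor
    · intro h3; linarith
    · intro h3
      by_contra h4
      exact h1 ⟨h3, lt_of_le_of_ne (not_lt.mp h4) h2⟩
  have key2 : ∀ z < n, z ≠ a → z ≠ b → (κ z < κ b ↔ κ z < κ a) := by
    intro z hz hza hzb
    have h1 := h.hadj z hz
    have h2 : κ a ≠ κ z := fun e => hza (hκ a h.ha z hz e).symm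
    constructor
    · intro h3
      by_contra h4
      exact h1 ⟨lt_of_le_of_ne (not_lt.mp h4) h2, h3⟩
    · intro h3; linarith
  unfold sw
  by_cases hxa : x = a
  · subst hxa
    rw [Equiv.swap_apply_left]
    by_cases hya : y = x
    · subst hya
      rw [Equiv.swap_apply_left]
      simp
    · by_cases hyb : y = b
      · exact absurd (Or.inl ⟨rfl, hyb⟩) hxy
      · rw [Equiv.swap_apply_of_ne_of_ne hya hyb]
        exact key1 y hy hya hyb
  · by_cases hxb : x = b
    · subst hxb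
      rw [Equiv.swap_apply_right]
      by_cases hya : y = a
      · exact absurd (Or.inr ⟨rfl, hya⟩) hxy
      · by_cases hyb : y = x
        · subst hyb
          rw [Equiv.swap_apply_right]
          simp
        · rw [Equiv.swap_apply_of_ne_of_ne hya hyb]
          exact (key1 y hy hya hyb).symm
    · rw [Equiv.swap_apply_of_ne_of_ne hxa hxb]
      by_cases hya : y = a
      · subst hya
        rw [Equiv.swap_apply_left]
        exact key2 x hx hxa hxb
      · by_cases hyb : y = b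
        · subst hyb
          rw [Equiv.swap_apply_right]
          exact (key2 x hx hxa hxb).symm
        · rw [Equiv.swap_apply_of_ne_of_ne hya hyb]

/-- (K6) `Disc (sw κ a b) κ' ⊆ Disc κ κ'` by K6a (the pair `{a,b}` is not discordant any more),
and the pair `(min a b, max a b)` lies in the second set only. -/
lemma disc_sw_ssubset (hκ : Inj n κ) {a b : ℕ} (h : Adj n κ a b) (hab : κ' b < κ' a) :
    Disc n (sw κ a b) κ' ⊂ Disc n κ κ' := by
  have hκab := h.hab
  have hne : a ≠ b := by rintro rfl; exact lt_irrefl _ hκab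
  have hswa : sw κ a b a = κ b := by unfold sw; rw [Equiv.swap_apply_left]
  have hswb : sw κ a b b = κ a := by unfold sw; rw [Equiv.swap_apply_right]
  have hnab : ∀ q : ℕ × ℕ, ((q.1 = a ∧ q.2 = b) ∨ (q.1 = b ∧ q.2 = a)) →
      q ∉ Disc n (sw κ a b) κ' := by
    rintro ⟨x, y⟩ hq hmem
    simp only [Disc, mem_filter, mem_product, mem_range] at hmem
    obtain ⟨-, -, hd⟩ := hmem
    apply hd
    rcases hq with ⟨h1, h2⟩ | ⟨h1, h2⟩
    · simp only at h1 h2
      subst h1; subst h2
      rw [hswa, hswb]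
      constructor
      · intro h3; exact absurd h3 (not_lt.mpr hκab.le)
      · intro h3; exact absurd h3 (not_lt.mpr hab.le)
    · simp only at h1 h2
      subst h1; subst h2
      rw [hswa, hswb]
      exact ⟨fun _ => hab, fun _ => hκab⟩
  refine ⟨?_, ?_⟩
  · intro q hq
    have hq' := hq
    simp only [Disc, mem_filter, mem_product, mem_range] at hq' ⊢
    obtain ⟨⟨hx, hy⟩, hlt, hd⟩ := hq'
    refine ⟨⟨hx, hy⟩, hlt, ?_⟩
    have hxy : ¬ ((q.1 = a ∧ q.2 = b) ∨ (q.1 = b ∧ q.2 = a)) := fun hc => hnab q hc hq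
    rwa [sw_lt_iff hκ h hx hy hxy] at hd
  · intro hsub
    rcases lt_or_gt_of_ne hne with hlt | hlt
    · have hmem : ((a, b) : ℕ × ℕ) ∈ Disc n κ κ' := by
        simp only [Disc, mem_filter, mem_product, mem_range]
        refine ⟨⟨h.ha, h.hb⟩, hlt, ?_⟩
        intro hiff
        exact absurd (hiff.mp hκab) (not_lt.mpr hab.le)
      exact hnab (a, b) (Or.inl ⟨rfl, rfl⟩) (hsub hmem)
    · have hmem : ((b, a) : ℕ × ℕ) ∈ Disc n κ κ' := by
        simp only [Disc, mem_filter, mem_product, mem_range]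
        refine ⟨⟨h.hb, h.ha⟩, hlt, ?_⟩
        intro hiff
        exact absurd (hiff.mpr hab) (not_lt.mpr hκab.le)
      exact hnab (b, a) (Or.inr ⟨rfl, rfl⟩) (hsub hmem)

/-- (K7) **Lemma A.**  Strong induction on the number of discordant pairs: K4 if it is `0`;
otherwise K5, K6 (`card_lt_card`), K2, K3, `inj_sw`. -/
theorem DD_le_disc (hκ : Inj (2 * k + 1) κ) (hκ' : Inj (2 * k + 1) κ') :
    DD k κ κ' ≤ (Disc (2 * k + 1) κ κ').card := by
  induction' hN : (Disc (2 * k + 1) κ κ').card using Nat.strong_induction_on with N ih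
    generalizing κ
  rcases (Disc (2 * k + 1) κ κ').eq_empty_or_nonempty with h0 | hne
  · rw [DD_eq_zero hκ hκ' h0]
    positivity
  · obtain ⟨a, b, hadj, hab⟩ := exists_adj hκ hκ' hne
    have hss := disc_sw_ssubset hκ hadj hab
    have hlt := Finset.card_lt_card hss
    rw [hN] at hlt
    have h1 := ih _ hlt (inj_sw hκ hadj.ha hadj.hb) rfl
    have h2 := DD_sw_le_one hκ hadj
    have h3 := DD_triangle (k := k) (κ := κ) (κ' := sw κ a b) (κ'' := κ')
    have h4 : ((Disc (2 * k + 1) (sw κ a b) κ').card : ℤ) + 1 ≤ N := by exact_mod_cast hlt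
    linarith

end Vale.Agent.P040.All
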