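import Vale.Agent.P040.All.Foll

/-! # The Lipschitz lemma (rows L1 - L9) -/

namespace Vale.Agent.P040.All

open Finset

lemma card_filter_split {n u v : ℕ} (hu : u < n) (hv : v < n) (huv : u ≠ v)
    (P : ℕ → Prop) [DecidablePred P] :
    ((range n).filter P).card = ((((range n).erase u).erase v).filter P).card +
      (if P u then 1 else 0) + (if P v then 1 else 0) := by
  have hv' : v ∈ (range n).erase u := mem_erase.mpr ⟨huv.symm, mem_range.mpr hv⟩
  have e1 : range n = insert u (insert v (((range n).erase u).erase v)) := by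
    rw [insert_erase hv', insert_erase (mem_range.mpr hu)]
  have hn1 : v ∉ ((range n).erase u).erase v := notMem_erase _ _
  have hn2 : u ∉ insert v (((range n).erase u).erase v) := by
    simp [huv]
  conv_lhs => rw [e1]
  rw [filter_insert, filter_insert]
  by_cases hPu : P u <;> by_cases hPv : P v
  · rw [if_pos hPu, if_pos hPv, if_pos hPu, if_pos hPv, card_insert_of_notMem, card_insert_of_notMem]
    · intro h; exact hn1 (mem_filter.mp h).1
    · intro h
      rcases mem_insert.mp h with h | h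
      · exact huv h
      · exact hn2 (mem_insert_of_mem (mem_filter.mp h).1)
  · rw [if_pos hPu, if_neg hPv, if_pos hPu, if_neg hPv, card_insert_of_notMem]
    intro h; exact hn2 (mem_insert_of_mem (mem_filter.mp h).1)
  · rw [if_neg hPu, if_pos hPv, if_neg hPu, if_pos hPv, card_insert_of_notMem]
    intro h; exact hn1 (mem_filter.mp h).1
  · rw [if_neg hPu, if_neg hPv, if_neg hPu, if_neg hPv, add_zero, add_zero]

/-- (L1) two predicates that agree off `{u, v}`. -/
lemma card_filter_off_pair {n u v : ℕ} (hu : u < n) (hv : v < n) (huv : u ≠ v)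
    (P Q : ℕ → Prop) [DecidablePred P] [DecidablePred Q]
    (h : ∀ y < n, y ≠ u → y ≠ v → (P y ↔ Q y)) :
    ((range n).filter P).card + (if Q u then 1 else 0) + (if Q v then 1 else 0) =
      ((range n).filter Q).card + (if P u then 1 else 0) + (if P v then 1 else 0) := by
  rw [card_filter_split hu hv huv P, card_filter_split hu hv huv Q]
  have e : (((range n).erase u).erase v).filter P = (((range n).erase u).erase v).filter Q := by
    apply filter_congr
    intro y hy
    have h1 := mem_erase.mp hy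
    have h2 := mem_erase.mp h1.2
    exact h y (mem_range.mp h2.2) h2.1 h1.1
  rw [e]
  omega

/-- The situation of the Lipschitz lemma: `b` immediately follows `a` in `p`; `p'` is `p` with `a`
and `b` exchanged; `z` is the element `k` places after `b` (cyclically), i.e. `k` places
before `a`. -/
structure LipCtx (k : ℕ) (p p' : ℕ → ℕ) (a b z : ℕ) : Prop where
  ha : a < 2 * k + 1
  hb : b < 2 * k + 1
  hz : z < 2 * k + 1
  hlt : ∀ x < 2 * k + 1, p x < 2 * k + 1
  hinj : ∀ x < 2 * k + 1, ∀ y < 2 * k + 1, p x = p y → x = y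
  hab : p b = p a + 1
  hz' : p z = p b + k ∨ p z + k + 1 = p b
  hpa : p' a = p b
  hpb : p' b = p a
  hp : ∀ x, x ≠ a → x ≠ b → p' x = p x

variable {k : ℕ} {p p' : ℕ → ℕ} {a b z : ℕ}

/-- (L2) `a ≠ b` as `p b = p a + 1`; then `k ≥ 1`; `p z ≠ p a`, `p z ≠ p b` by `omega`. -/
lemma LipCtx.ne (h : LipCtx k p p' a b z) : a ≠ b ∧ a ≠ z ∧ b ≠ z ∧ 1 ≤ k := by
  have hab := h.hab
  have hz' := h.hz'
  have h1 := h.hlt a h.ha
  have h2 := h.hlt b h.hb
  have h3 := h.hlt z h.hz
  have hk : 1 ≤ k := by omega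
  refine ⟨?_, ?_, ?_, hk⟩
  · rintro rfl; omega
  · rintro rfl; omega
  · rintro rfl; omega

/-- (L3) off the triangle `{a,b,z}` the relation does not change.  Unfold `Foll`; rewrite `p' x`,
`p' y` by `hpa/hpb/hp` (cases `x = a`, `x = b`, `y = a`, `y = b`); use `hinj` to get
`p x ≠ p a` etc.; `omega`. -/
lemma LipCtx.foll_iff (h : LipCtx k p p' a b z) {x y : ℕ} (hx : x < 2 * k + 1)
    (hy : y < 2 * k + 1) (hxy : ¬ ((x = a ∨ x = b ∨ x = z) ∧ (y = a ∨ y = b ∨ y = z))) :
    Foll k p' x y ↔ Foll k p x y := by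
  obtain ⟨hab', haz', hbz', hk⟩ := h.ne
  have hA := h.hab
  have hZ := h.hz'
  have hla := h.hlt a h.ha
  have hlb := h.hlt b h.hb
  have hlz := h.hlt z h.hz
  have hlx := h.hlt x hx
  have hly := h.hlt y hy
  have ixa : x ≠ a → p x ≠ p a := fun hne he => hne (h.hinj x hx a h.ha he)
  have ixb : x ≠ b → p x ≠ p b := fun hne he => hne (h.hinj x hx b h.hb he)
  have ixz : x ≠ z → p x ≠ p z := fun hne he => hne (h.hinj x hx z h.hz he)
  have iya : y ≠ a → p y ≠ p a := fun hne he => hne (h.hinj y hy a h.ha he)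
  have iyb : y ≠ b → p y ≠ p b := fun hne he => hne (h.hinj y hy b h.hb he)
  have iyz : y ≠ z → p y ≠ p z := fun hne he => hne (h.hinj y hy z h.hz he)
  unfold Foll
  by_cases hxa : x = a
  · subst hxa
    have hya : y ≠ x := fun e => hxy ⟨Or.inl rfl, Or.inl e⟩
    have hyb : y ≠ b := fun e => hxy ⟨Or.inl rfl, Or.inr (Or.inl e)⟩
    have hyz : y ≠ z := fun e => hxy ⟨Or.inl rfl, Or.inr (Or.inr e)⟩
    rw [h.hpa, h.hp y hya hyb]
    have := iya hya
    have := iyb hyb
    have := iyz hyz
    omega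
  by_cases hxb : x = b
  · subst hxb
    have hya : y ≠ a := fun e => hxy ⟨Or.inr (Or.inl rfl), Or.inl e⟩
    have hyb : y ≠ x := fun e => hxy ⟨Or.inr (Or.inl rfl), Or.inr (Or.inl e)⟩
    have hyz : y ≠ z := fun e => hxy ⟨Or.inr (Or.inl rfl), Or.inr (Or.inr e)⟩
    rw [h.hpb, h.hp y hya hyb]
    have := iya hya
    have := iyb hyb
    have := iyz hyz
    omega
  rw [h.hp x hxa hxb]
  have := ixa hxa
  have := ixb hxb
  by_cases hya : y = a
  · subst hya
    have hxz : x ≠ z := fun e => hxy ⟨Or.inr (Or.inr e), Or.inl rfl⟩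
    have := ixz hxz
    rw [h.hpa]
    omega
  by_cases hyb : y = b
  · subst hyb
    have hxz : x ≠ z := fun e => hxy ⟨Or.inr (Or.inr e), Or.inr (Or.inl rfl)⟩
    have := ixz hxz
    rw [h.hpb]
    omega
  rw [h.hp y hya hyb]

/-- (L4) the triangle before and after: `a → b → z → a` becomes `b → a → z → b` reversed. -/
lemma LipCtx.tri (h : LipCtx k p p' a b z) :
    (Foll k p a b ∧ ¬ Foll k p a z ∧ Foll k p b z ∧ ¬ Foll k p b a ∧ Foll k p z a ∧
      ¬ Foll k p z b) ∧
    (¬ Foll k p' a b ∧ Foll k p' a z ∧ ¬ Foll k p' b z ∧ Foll k p' b a ∧ ¬ Foll k p' z a ∧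
      Foll k p' z b) := by
  obtain ⟨hab', haz', hbz', hk⟩ := h.ne
  have hA := h.hab
  have hZ := h.hz'
  have hla := h.hlt a h.ha
  have hlb := h.hlt b h.hb
  have hlz := h.hlt z h.hz
  have hpz : p' z = p z := h.hp z (Ne.symm haz') (Ne.symm hbz')
  unfold Foll
  rw [h.hpa, h.hpb, hpz]
  omega

/-- (L5) `filter_congr` with L3. -/
lemma LipCtx.NNp_other (h : LipCtx k p p' a b z) {x : ℕ} (hx : x < 2 * k + 1) (hxa : x ≠ a)
    (hxb : x ≠ b) (hxz : x ≠ z) : NNp k p' x = NNp k p x := by
  unfold NNp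
  congr 1
  apply Finset.filter_congr
  intro y hy
  rw [Finset.mem_range] at hy
  rw [h.foll_iff hx hy (fun hh => by rcases hh.1 with e | e | e <;> contradiction)]

/-- (L6) L1 with `u = b`, `v = z`, `P y = (a < y ∧ Foll k p a y)`, `Q` the same with `p'`;
L3, L4. -/
lemma LipCtx.NNp_a (h : LipCtx k p p' a b z) :
    NNp k p a + (if a < z then 1 else 0) = NNp k p' a + (if a < b then 1 else 0) := by
  obtain ⟨hab', haz', hbz', hk⟩ := h.ne
  obtain ⟨⟨t1, t2, t3, t4, t5, t6⟩, ⟨s1, s2, s3, s4, s5, s6⟩⟩ := h.tri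
  have key := card_filter_off_pair h.hb h.hz hbz' (fun y => a < y ∧ Foll k p a y)
    (fun y => a < y ∧ Foll k p' a y) (by
      intro y hy hyb hyz
      by_cases hya : y = a
      · subst hya
        simp
      · rw [h.foll_iff h.ha hy (fun hh => by rcases hh.2 with e | e | e <;> contradiction)])
  unfold NNp
  simp only [t1, t2, s1, s2, and_true, and_false, if_false] at key
  omega

/-- (L7) L1 with `u = a`, `v = z`. -/
lemma LipCtx.NNp_b (h : LipCtx k p p' a b z) :
    NNp k p b + (if b < a then 1 else 0) = NNp k p' b + (if b < z then 1 else 0) := by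
  obtain ⟨hab', haz', hbz', hk⟩ := h.ne
  obtain ⟨⟨t1, t2, t3, t4, t5, t6⟩, ⟨s1, s2, s3, s4, s5, s6⟩⟩ := h.tri
  have key := card_filter_off_pair h.ha h.hz haz' (fun y => b < y ∧ Foll k p b y)
    (fun y => b < y ∧ Foll k p' b y) (by
      intro y hy hya hyz
      by_cases hyb : y = b
      · subst hyb
        simp
      · rw [h.foll_iff h.hb hy (fun hh => by rcases hh.2 with e | e | e <;> contradiction)])
  unfold NNp
  simp only [t3, t4, s3, s4, and_true, and_false, if_false] at key
  omega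

/-- (L8) L1 with `u = a`, `v = b`. -/
lemma LipCtx.NNp_z (h : LipCtx k p p' a b z) :
    NNp k p z + (if z < b then 1 else 0) = NNp k p' z + (if z < a then 1 else 0) := by
  obtain ⟨hab', haz', hbz', hk⟩ := h.ne
  obtain ⟨⟨t1, t2, t3, t4, t5, t6⟩, ⟨s1, s2, s3, s4, s5, s6⟩⟩ := h.tri
  have key := card_filter_off_pair h.ha h.hb hab' (fun y => z < y ∧ Foll k p z y)
    (fun y => z < y ∧ Foll k p' z y) (by
      intro y hy hya hyb
      by_cases hyz : y = z
      · subst hyz
        simp
      · rw [h.foll_iff h.hz hy (fun hh => by rcases hh.2 with e | e | e <;> contradiction)])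
  unfold NNp
  simp only [t5, t6, s5, s6, and_true, and_false, if_false] at key
  omega

/-- indicator used in the direct proof of L9 -/
def ind (k : ℕ) (p : ℕ → ℕ) (x y : ℕ) : ℤ := if x < y ∧ Foll k p x y then 1 else 0

theorem NNp_eq_sum_ind (k : ℕ) (p : ℕ → ℕ) (x : ℕ) :
    (NNp k p x : ℤ) = ∑ y ∈ Finset.range (2 * k + 1), ind k p x y := by
  unfold NNp ind
  rw [Finset.card_filter]
  push_cast
  rfl

theorem sum_two_point {S : Finset ℕ} (f f₁ : ℕ → ℤ) (u w : ℕ) (hu : u ∈ S) (hw : w ∈ S) (huw : u ≠ w)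
    (h : ∀ y ∈ S, y ≠ u → y ≠ w → f y = f₁ y) :
    ∑ y ∈ S, f y - ∑ y ∈ S, f₁ y = (f u - f₁ u) + (f w - f₁ w) := by
  rw [← Finset.sum_sub_distrib]
  have hsub : ({u, w} : Finset ℕ) ⊆ S := by
    intro y hy
    simp only [Finset.mem_insert, Finset.mem_singleton] at hy
    rcases hy with rfl | rfl <;> assumption
  rw [← Finset.sum_subset hsub]
  · rw [Finset.sum_pair huw]
  · intro y hy hy'
    simp only [Finset.mem_insert, Finset.mem_singleton, not_or] at hy'
    rw [h y hy hy'.1 hy'.2, sub_self]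

theorem swap_lip (k : ℕ) (p p₁ : ℕ → ℕ) (a b v : ℕ) (ha : a < 2 * k + 1) (hb : b < 2 * k + 1)
    (hv : v < 2 * k + 1)
    (hinj : ∀ x < 2 * k + 1, ∀ y < 2 * k + 1, p x = p y → x = y)
    (hlt : ∀ x < 2 * k + 1, p x < 2 * k + 1)
    (hab : p b = p a + 1) (hv' : p v = p a + k + 1 ∨ p v + k = p a)
    (h1a : p₁ a = p b) (h1b : p₁ b = p a) (h1 : ∀ c, c ≠ a → c ≠ b → p₁ c = p c) :
    ∑ x ∈ Finset.range (2 * k + 1), |(NNp k p x : ℤ) - NNp k p₁ x| ≤ 1 := by
  have hk : 1 ≤ k := by
    by_contra hk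
    have h0 : a = 0 := by omega
    have h0' : b = 0 := by omega
    subst h0; subst h0'; omega
  have hab' : a ≠ b := by
    intro h; subst h; omega
  have hva : v ≠ a := by
    intro h; subst h; omega
  have hvb : v ≠ b := by
    intro h; subst h; omega
  have hpa := hlt a ha
  have hpb := hlt b hb
  have hpv := hlt v hv
  have h1v : p₁ v = p v := h1 v hva hvb
  have hne : ∀ c < 2 * k + 1, c ≠ a → c ≠ b → c ≠ v →
      p c ≠ p a ∧ p c ≠ p a + 1 ∧ p c ≠ p v ∧ p c < 2 * k + 1 ∧ p₁ c = p c := by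
    intro c hc hca hcb hcv
    refine ⟨fun h => hca (hinj c hc a ha h), fun h => hcb (hinj c hc b hb (by omega)),
      fun h => hcv (hinj c hc v hv h), hlt c hc, h1 c hca hcb⟩
  -- rows outside the triple do not change
  have hout : ∀ x ∈ Finset.range (2 * k + 1), x ∉ ({a, b, v} : Finset ℕ) →
      |(NNp k p x : ℤ) - NNp k p₁ x| = 0 := by
    intro x hx hxT
    simp only [Finset.mem_insert, Finset.mem_singleton, not_or] at hxT
    obtain ⟨hxa, hxb, hxv⟩ := hxT
    have hx' := Finset.mem_range.mp hx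
    obtain ⟨e1, e2, e3, e4, e5⟩ := hne x hx' hxa hxb hxv
    have : NNp k p x = NNp k p₁ x := by
      unfold NNp
      congr 1
      apply Finset.filter_congr
      intro y hy
      have hy' := Finset.mem_range.mp hy
      have hpy := hlt y hy'
      unfold Foll
      rw [e5]
      by_cases hya : y = a
      · subst hya; rw [h1a, hab]
        constructor <;> rintro ⟨h, h'⟩ <;> refine ⟨h, ?_⟩ <;> omega
      · by_cases hyb : y = b
        · subst hyb; rw [h1b, hab]
          constructor <;> rintro ⟨h, h'⟩ <;> refine ⟨h, ?_⟩ <;> omega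
        · rw [h1 y hya hyb]
    rw [this]; simp
  have hsub : ({a, b, v} : Finset ℕ) ⊆ Finset.range (2 * k + 1) := by
    intro y hy
    simp only [Finset.mem_insert, Finset.mem_singleton] at hy
    rcases hy with rfl | rfl | rfl <;> exact Finset.mem_range.mpr (by assumption)
  rw [← Finset.sum_subset hsub hout]
  rw [Finset.sum_insert (by simp [hab', hva.symm]), Finset.sum_insert (by simp [hvb.symm]),
    Finset.sum_singleton]
  -- the three rows
  have hA : (NNp k p a : ℤ) - NNp k p₁ a = (if a < b then 1 else 0) - (if a < v then 1 else 0) := by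
    rw [NNp_eq_sum_ind, NNp_eq_sum_ind,
      sum_two_point _ _ b v (Finset.mem_range.mpr hb) (Finset.mem_range.mpr hv) hvb.symm]
    · unfold ind Foll
      split_ifs <;> omega
    · intro y hy hyb hyv
      have hy' := Finset.mem_range.mp hy
      unfold ind Foll
      by_cases hya : y = a
      · subst hya; simp
      · obtain ⟨e1, e2, e3, e4, e5⟩ := hne y hy' hya hyb hyv
        split_ifs <;> omega
  have hB : (NNp k p b : ℤ) - NNp k p₁ b = (if b < v then 1 else 0) - (if b < a then 1 else 0) := by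
    rw [NNp_eq_sum_ind, NNp_eq_sum_ind,
      sum_two_point _ _ a v (Finset.mem_range.mpr ha) (Finset.mem_range.mpr hv) hva.symm]
    · unfold ind Foll
      split_ifs <;> omega
    · intro y hy hya hyv
      have hy' := Finset.mem_range.mp hy
      unfold ind Foll
      by_cases hyb : y = b
      · subst hyb; simp
      · obtain ⟨e1, e2, e3, e4, e5⟩ := hne y hy' hya hyb hyv
        split_ifs <;> omega
  have hV : (NNp k p v : ℤ) - NNp k p₁ v = (if v < a then 1 else 0) - (if v < b then 1 else 0) := by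
    rw [NNp_eq_sum_ind, NNp_eq_sum_ind,
      sum_two_point _ _ a b (Finset.mem_range.mpr ha) (Finset.mem_range.mpr hb) hab']
    · unfold ind Foll
      split_ifs <;> omega
    · intro y hy hya hyb
      have hy' := Finset.mem_range.mp hy
      have e5 := h1 y hya hyb
      unfold ind Foll
      split_ifs <;> omega
  rw [hA, hB, hV]
  split_ifs <;> simp <;> omega

/-- (L9) only the median of `a, b, z` changes, by one.  `Finset.sum_subset` to `{a, b, z}`
(L5 gives `0` elsewhere), `sum_insert`, then L6 - L8, `split_ifs`, `abs` cases, `omega`. -/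
lemma LipCtx.sum_le_one (h : LipCtx k p p' a b z) :
    ∑ x ∈ range (2 * k + 1), |(NNp k p x : ℤ) - NNp k p' x| ≤ 1 := by
  refine swap_lip k p p' a b z h.ha h.hb h.hz h.hinj h.hlt h.hab ?_ h.hpa h.hpb h.hp
  have h1 := h.hab
  have h2 := h.hz'
  omega

end Vale.Agent.P040.All
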