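import Vale.Agent.P040.All.Defs

/-! # Positions (rows P1 - P10) -/

namespace Vale.Agent.P040.All

open Finset

variable {n : ℕ} {κ κ' : ℕ → ℤ}

/-- (P1) the filter is contained in `range n` minus `x`. -/
lemma pos_lt {x : ℕ} (hx : x < n) : pos n κ x < n := by
  unfold pos
  have h : ((range n).filter fun y => κ y < κ x) ⊂ range n := by
    refine ⟨filter_subset _ _, fun h => ?_⟩
    have := h (mem_range.2 hx)
    simp at this
  simpa using card_lt_card h

/-- (P2) `filter (κ · < κ x) ⊆ filter (κ · < κ y)`. -/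
lemma pos_le_pos {x y : ℕ} (h : κ x ≤ κ y) : pos n κ x ≤ pos n κ y := by
  apply card_le_card
  intro z hz
  rw [mem_filter] at hz ⊢
  exact ⟨hz.1, lt_of_lt_of_le hz.2 h⟩

/-- (P3) strict: `x` lies in the second filter and not in the first. -/
lemma pos_lt_pos {x y : ℕ} (hx : x < n) (h : κ x < κ y) : pos n κ x < pos n κ y := by
  apply card_lt_card
  rw [ssubset_iff_of_subset]
  · exact ⟨x, mem_filter.mpr ⟨mem_range.mpr hx, h⟩, fun hm => lt_irrefl _ (mem_filter.mp hm).2⟩
  · intro z hz
    rw [mem_filter] at hz ⊢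
    exact ⟨hz.1, lt_trans hz.2 h⟩

/-- (P4) from P2, P3. -/
lemma pos_lt_iff {x y : ℕ} (hx : x < n) : pos n κ x < pos n κ y ↔ κ x < κ y := by
  constructor
  · intro h
    by_contra hcon
    rw [not_lt] at hcon
    exact absurd (pos_le_pos (n := n) hcon) (not_le.mpr h)
  · exact pos_lt_pos hx

/-- (P5) from P3 (trichotomy of `κ x`, `κ y`). -/
lemma pos_inj (hκ : Inj n κ) {x y : ℕ} (hx : x < n) (hy : y < n)
    (h : pos n κ x = pos n κ y) : x = y := by
  rcases lt_trichotomy (κ x) (κ y) with h1 | h1 | h1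
  · exact absurd h (ne_of_lt (pos_lt_pos hx h1))
  · exact hκ x hx y hy h1
  · exact absurd h.symm (ne_of_lt (pos_lt_pos hy h1))

/-- (P6) same order, same positions (`filter_congr`). -/
lemma pos_congr (h : ∀ x < n, ∀ y < n, (κ x < κ y ↔ κ' x < κ' y)) {x : ℕ} (hx : x < n) :
    pos n κ x = pos n κ' x := by
  unfold pos
  congr 1
  apply Finset.filter_congr
  intro y hy
  exact h y (Finset.mem_range.mp hy) x hx

/-- (P7) reversal: `range n` is the disjoint union of `{κ y < κ x}`, `{κ x < κ y}` and `{x}`. -/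
lemma pos_neg (hκ : Inj n κ) {x : ℕ} (hx : x < n) :
    pos n (fun y => - κ y) x + pos n κ x + 1 = n := by
  unfold pos
  have h1 := Finset.card_filter_add_card_filter_not (s := range n) (fun y => κ y < κ x)
  have h2 : (range n).filter (fun y => ¬ κ y < κ x) =
      insert x ((range n).filter (fun y => - κ y < - κ x)) := by
    ext y
    simp only [mem_filter, mem_range, mem_insert, neg_lt_neg_iff, not_lt]
    constructor
    · rintro ⟨hy, hle⟩
      rcases hle.lt_or_eq with h | h
      · exact Or.inr ⟨hy, h⟩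
      · exact Or.inl (hκ y hy x hx h.symm)
    · rintro (rfl | ⟨hy, h⟩)
      · exact ⟨hx, le_rfl⟩
      · exact ⟨hy, h.le⟩
  have h3 : x ∉ (range n).filter (fun y => - κ y < - κ x) := by
    simp
  rw [h2, card_insert_of_notMem h3, card_range] at h1
  simp only at h1 ⊢
  omega

/-- (P8) `pos` is an injective map `range n → range n`, hence onto
(`Finset.surj_on_of_inj_on_of_card_le` or `Finset.eq_of_subset_of_card_le` on the image). -/
lemma pos_surj (hκ : Inj n κ) {j : ℕ} (hj : j < n) : ∃ x < n, pos n κ x = j := by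
  have hsub : (range n).image (pos n κ) ⊆ range n := by
    intro y hy
    obtain ⟨x, hx, rfl⟩ := mem_image.mp hy
    exact mem_range.mpr (pos_lt (mem_range.mp hx))
  have hcard : ((range n).image (pos n κ)).card = (range n).card := by
    apply card_image_of_injOn
    intro x hx y hy h
    exact pos_inj hκ (mem_range.mp hx) (mem_range.mp hy) h
  have heq := eq_of_subset_of_card_le hsub hcard.ge
  have hj' : j ∈ (range n).image (pos n κ) := by
    rw [heq]
    exact mem_range.mpr hj
  obtain ⟨x, hx, rfl⟩ := mem_image.mp hj'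
  exact ⟨x, mem_range.mp hx, rfl⟩

/-- (P9) `Equiv.swap a b` maps `range n` onto itself; `card_bij` / `card_nbij'`. -/
lemma pos_sw {a b : ℕ} (ha : a < n) (hb : b < n) (x : ℕ) :
    pos n (sw κ a b) x = pos n κ (Equiv.swap a b x) := by
  unfold pos sw
  have hmem : ∀ y, y < n → Equiv.swap a b y < n := by
    intro y hy
    by_cases h1 : y = a
    · rw [h1, Equiv.swap_apply_left]; exact hb
    · by_cases h2 : y = b
      · rw [h2, Equiv.swap_apply_right]; exact ha
      · rw [Equiv.swap_apply_of_ne_of_ne h1 h2]; exact hy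
  apply Finset.card_nbij' (fun y => Equiv.swap a b y) (fun y => Equiv.swap a b y)
  · intro y hy
    simp only [Finset.coe_filter, Finset.mem_range, Set.mem_setOf_eq] at hy ⊢
    exact ⟨hmem y hy.1, hy.2⟩
  · intro y hy
    simp only [Finset.coe_filter, Finset.mem_range, Set.mem_setOf_eq] at hy ⊢
    refine ⟨hmem y hy.1, ?_⟩
    rw [Equiv.swap_apply_self]
    exact hy.2
  · intro y _
    exact Equiv.swap_apply_self a b y
  · intro y _
    exact Equiv.swap_apply_self a b y

/-- (P10) `{κ y < κ b} = {κ y < κ a} ∪ {a}`. -/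
lemma pos_adj (hκ : Inj n κ) {a b : ℕ} (h : Adj n κ a b) : pos n κ b = pos n κ a + 1 := by
  unfold pos
  have h2 : (range n).filter (fun y => κ y < κ b) =
      insert a ((range n).filter (fun y => κ y < κ a)) := by
    ext y
    simp only [mem_filter, mem_range, mem_insert]
    constructor
    · rintro ⟨hy, hlt⟩
      rcases lt_trichotomy (κ y) (κ a) with h1 | h1 | h1
      · exact Or.inr ⟨hy, h1⟩
      · exact Or.inl (hκ y hy a h.ha h1)
      · exact absurd ⟨h1, hlt⟩ (h.hadj y hy)
    · rintro (rfl | ⟨hy, h1⟩)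
      · exact ⟨h.ha, h.hab⟩
      · exact ⟨hy, h1.trans h.hab⟩
  have h3 : a ∉ (range n).filter (fun y => κ y < κ a) := by
    simp
  rw [h2, card_insert_of_notMem h3]

/-- (P11) -/
lemma inj_sw (hκ : Inj n κ) {a b : ℕ} (ha : a < n) (hb : b < n) : Inj n (sw κ a b) := by
  have hlt : ∀ x < n, Equiv.swap a b x < n := by
    intro x hx
    rcases em (x = a) with h | h
    · subst h; rw [Equiv.swap_apply_left]; exact hb
    · by_cases h2 : x = b
      · subst h2; rw [Equiv.swap_apply_right]; exact ha
      · rw [Equiv.swap_apply_of_ne_of_ne h h2]; exact hx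
  intro x hx y hy h
  exact (Equiv.swap a b).injective (hκ _ (hlt x hx) _ (hlt y hy) h)

/-- (P12) -/
lemma inj_neg (hκ : Inj n κ) : Inj n (fun y => - κ y) := by
  intro x hx y hy h
  exact hκ x hx y hy (neg_injective h)

end Vale.Agent.P040.All
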