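import Vale.Agent.P040.All.Foll

/-! # Rotation of a cyclic sequence (rows R1 - R6) -/

namespace Vale.Agent.P040.All

open Finset

/-- `κ'` is the rotation of `κ` that moves the initial block `A` to the end. -/
structure Rot (n : ℕ) (κ κ' : ℕ → ℤ) (A : ℕ → Prop) : Prop where
  hA : ∀ x < n, ∀ y < n, A x → A y → (κ x < κ y ↔ κ' x < κ' y)
  hN : ∀ x < n, ∀ y < n, ¬ A x → ¬ A y → (κ x < κ y ↔ κ' x < κ' y)
  hAN : ∀ x < n, ∀ y < n, A x → ¬ A y → κ x < κ y ∧ κ' y < κ' x

variable {n k : ℕ} {κ κ' : ℕ → ℤ} {A : ℕ → Prop} [DecidablePred A]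

/-- (R1) for `A x`: `{y | κ y < κ x} ⊆ filter A` minus `x` (a `y` with `¬ A y` has `κ x < κ y`). -/
lemma rot_pos_A_lt (h : Rot n κ κ' A) {x : ℕ} (hx : x < n) (hAx : A x) :
    pos n κ x < ((range n).filter A).card := by
  unfold pos
  apply card_lt_card
  rw [ssubset_iff_of_subset]
  · refine ⟨x, mem_filter.mpr ⟨mem_range.mpr hx, hAx⟩, ?_⟩
    intro hmem
    exact lt_irrefl _ (mem_filter.mp hmem).2
  · intro y hy
    obtain ⟨hy1, hy2⟩ := mem_filter.mp hy
    refine mem_filter.mpr ⟨hy1, ?_⟩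
    by_contra hAy
    have h3 := (h.hAN x hx y (mem_range.mp hy1) hAx hAy).1
    exact lt_asymm h3 hy2

/-- (R2) for `A x`: `{y | κ' y < κ' x}` is the disjoint union of `filter (¬ A ·)` (which has
`n - a` elements, `card_filter_add_card_filter_not`/`filter_card_add_filter_neg_card_eq_card`) and
`{y | A y ∧ κ' y < κ' x} = {y | A y ∧ κ y < κ x} = {y | κ y < κ x}`. -/
lemma rot_pos_A_eq (h : Rot n κ κ' A) {x : ℕ} (hx : x < n) (hAx : A x) :
    pos n κ' x + ((range n).filter A).card = pos n κ x + n := by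
  unfold pos
  have key : ∀ y ∈ range n, (if κ' y < κ' x then 1 else 0) + (if A y then 1 else 0) =
      (if κ y < κ x then 1 else 0) + 1 := by
    intro y hy
    have hy' := mem_range.mp hy
    by_cases hAy : A y
    · have h0 := h.hA y hy' x hx hAy hAx
      by_cases h1 : κ y < κ x
      · simp [hAy, h1, h0.mp h1]
      · have h2 : ¬ κ' y < κ' x := fun h3 => h1 (h0.mpr h3)
        simp [hAy, h1, h2]
    · have h0 := h.hAN x hx y hy' hAx hAy
      have h1 : ¬ κ y < κ x := lt_asymm h0.1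
      simp [hAy, h0.2, h1]
  rw [card_filter, card_filter, card_filter, ← sum_add_distrib, sum_congr rfl key,
    sum_add_distrib]
  simp

/-- (R3) for `¬ A x`: `{y | κ y < κ x}` is the disjoint union of `filter A` and
`{y | ¬ A y ∧ κ y < κ x} = {y | ¬ A y ∧ κ' y < κ' x} = {y | κ' y < κ' x}`. -/
lemma rot_pos_N_eq (h : Rot n κ κ' A) {x : ℕ} (hx : x < n) (hAx : ¬ A x) :
    pos n κ' x + ((range n).filter A).card = pos n κ x := by
  unfold pos
  have key : ∀ y ∈ range n, (if κ' y < κ' x then 1 else 0) + (if A y then 1 else 0) =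
      (if κ y < κ x then 1 else 0) := by
    intro y hy
    have hy' := mem_range.mp hy
    by_cases hAy : A y
    · have h0 := h.hAN y hy' x hx hAy hAx
      have h1 : ¬ κ' y < κ' x := lt_asymm h0.2
      simp [hAy, h0.1, h1]
    · have h0 := h.hN y hy' x hx hAy hAx
      by_cases h1 : κ y < κ x
      · simp [hAy, h1, h0.mp h1]
      · have h2 : ¬ κ' y < κ' x := fun h3 => h1 (h0.mpr h3)
        simp [hAy, h1, h2]
  rw [card_filter, card_filter, card_filter, ← sum_add_distrib, sum_congr rfl key]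

/-- (R4) cases `A x`, `A y`; R1 - R3, `pos_lt` for `κ` and `κ'`; unfold `Foll`; `omega`. -/
lemma rot_foll (h : Rot (2 * k + 1) κ κ' A) {x y : ℕ} (hx : x < 2 * k + 1) (hy : y < 2 * k + 1) :
    Foll k (pos (2 * k + 1) κ') x y ↔ Foll k (pos (2 * k + 1) κ) x y := by
  have hx1 : pos (2 * k + 1) κ x < 2 * k + 1 := pos_lt hx
  have hx2 : pos (2 * k + 1) κ' x < 2 * k + 1 := pos_lt hx
  have hy1 : pos (2 * k + 1) κ y < 2 * k + 1 := pos_lt hy
  have hy2 : pos (2 * k + 1) κ' y < 2 * k + 1 := pos_lt hy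
  unfold Foll
  by_cases hAx : A x
  · have e1 := rot_pos_A_lt h hx hAx
    have e2 := rot_pos_A_eq h hx hAx
    by_cases hAy : A y
    · have e3 := rot_pos_A_lt h hy hAy
      have e4 := rot_pos_A_eq h hy hAy
      omega
    · have e4 := rot_pos_N_eq h hy hAy
      omega
  · have e2 := rot_pos_N_eq h hx hAx
    by_cases hAy : A y
    · have e3 := rot_pos_A_lt h hy hAy
      have e4 := rot_pos_A_eq h hy hAy
      omega
    · have e4 := rot_pos_N_eq h hy hAy
      omega

/-- (R5) `filter_congr` with R4. -/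
lemma NN_rot (h : Rot (2 * k + 1) κ κ' A) {x : ℕ} (hx : x < 2 * k + 1) :
    NN k κ' x = NN k κ x := by
  unfold NN NNp
  congr 1
  apply filter_congr
  intro y hy
  rw [rot_foll h hx (mem_range.mp hy)]

end Vale.Agent.P040.All
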