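import Vale.Agent.P040.Cut.Defs

/-!
# Zarankiewicz's drawing as a two-page drawing

Spine order `A₁ B₁ A₂ B₂` (`A₁` = the first `⌊m/2⌋` vertices of the first class, `B₁` = the first
`⌊n/2⌋` vertices of the second class); the edges `A₁B₁`, `A₂B₂` lie in one page, the edges `A₁B₂`,
`A₂B₁` in the other page.
-/

namespace Vale.Agent.P040.All

open Finset Vale.Agent.P040.Cut

/-- Zarankiewicz's drawing of `K_{m,n}` as a two-page drawing. -/
noncomputable def zarD (m n : ℕ) : TwoPageDrawing m n where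
  posA := fun i => if i.val < m / 2 then (i.val : ℝ) else (m : ℝ) + n + i.val
  posB := fun j => if j.val < n / 2 then (m : ℝ) + j.val else 2 * (m : ℝ) + n + j.val
  monoA := by
    intro i i' h
    have hx : (i.val : ℝ) < i'.val := by exact_mod_cast h
    have hm : (0 : ℝ) ≤ m := by positivity
    have hn : (0 : ℝ) ≤ n := by positivity
    have h' : i.val < i'.val := h
    show (if i.val < m / 2 then (i.val : ℝ) else (m : ℝ) + n + i.val) <
      (if i'.val < m / 2 then (i'.val : ℝ) else (m : ℝ) + n + i'.val)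
    split_ifs with h1 h2 h2
    · exact hx
    · linarith
    · omega
    · linarith
  monoB := by
    intro j j' h
    have hx : (j.val : ℝ) < j'.val := by exact_mod_cast h
    have hm : (0 : ℝ) ≤ m := by positivity
    have hn : (0 : ℝ) ≤ n := by positivity
    have h' : j.val < j'.val := h
    show (if j.val < n / 2 then (m : ℝ) + j.val else 2 * (m : ℝ) + n + j.val) <
      (if j'.val < n / 2 then (m : ℝ) + j'.val else 2 * (m : ℝ) + n + j'.val)
    split_ifs with h1 h2 h2
    · linarith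
    · linarith
    · omega
    · linarith
  distinct := by
    intro i j
    have h1 : (i.val : ℝ) < m := by exact_mod_cast i.isLt
    have h2 : (j.val : ℝ) < n := by exact_mod_cast j.isLt
    have h3 : (0 : ℝ) ≤ i.val := by positivity
    have h4 : (0 : ℝ) ≤ j.val := by positivity
    show (if i.val < m / 2 then (i.val : ℝ) else (m : ℝ) + n + i.val) ≠
      (if j.val < n / 2 then (m : ℝ) + j.val else 2 * (m : ℝ) + n + j.val)
    split_ifs <;> intro h <;> linarith
  page := fun i j => decide (i.val < m / 2) == decide (j.val < n / 2)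

lemma alt_lt {x y z w : ℝ} (hxy : x < y) (h : Alternate x y z w) :
    ((x < z ∧ z < y) ∧ (w < x ∨ y < w)) ∨ ((x < w ∧ w < y) ∧ (z < x ∨ y < z)) := by
  unfold Alternate Inside Outside at h
  rwa [min_eq_left hxy.le, max_eq_right hxy.le] at h

lemma alt_gt {x y z w : ℝ} (hxy : y < x) (h : Alternate x y z w) :
    ((y < z ∧ z < x) ∧ (w < y ∨ x < w)) ∨ ((y < w ∧ w < x) ∧ (z < y ∨ x < z)) := by
  unfold Alternate Inside Outside at h
  rwa [min_eq_right hxy.le, max_eq_left hxy.le] at h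

lemma alt_any {x y z w : ℝ} (h : Alternate x y z w) :
    (x < y ∧ (((x < z ∧ z < y) ∧ (w < x ∨ y < w)) ∨ ((x < w ∧ w < y) ∧ (z < x ∨ y < z)))) ∨
    (y ≤ x ∧ (((y < z ∧ z < x) ∧ (w < y ∨ x < w)) ∨ ((y < w ∧ w < x) ∧ (z < y ∨ x < z)))) := by
  rcases lt_or_ge x y with hxy | hxy
  · exact Or.inl ⟨hxy, alt_lt hxy h⟩
  · refine Or.inr ⟨hxy, ?_⟩
    unfold Alternate Inside Outside at h
    rwa [min_eq_right hxy, max_eq_left hxy] at h

/-- Two crossing edges of `zarD` join the same two blocks, and their ends come in the same order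
in both classes. -/
lemma zar_cross {m n : ℕ} (i i' : Fin m) (j j' : Fin n) (h : i < i')
    (hc : (zarD m n).Cross (i, j) (i', j')) :
    (i.val < m / 2 ↔ i'.val < m / 2) ∧ j < j' ∧ (j.val < n / 2 ↔ j'.val < n / 2) := by
  obtain ⟨hp, ha⟩ := hc
  simp only [zarD] at hp ha
  have h' : i.val < i'.val := h
  have hx : (i.val : ℝ) < i'.val := by exact_mod_cast h
  have hx0 : (0 : ℝ) ≤ i.val := by positivity
  have hxm : (i'.val : ℝ) < m := by exact_mod_cast i'.isLt
  have hy0 : (0 : ℝ) ≤ j.val := by positivity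
  have hyn : (j.val : ℝ) < n := by exact_mod_cast j.isLt
  have hy0' : (0 : ℝ) ≤ j'.val := by positivity
  have hyn' : (j'.val : ℝ) < n := by exact_mod_cast j'.isLt
  have gj : (j.val : ℝ) < j'.val → j < j' := fun h => by exact_mod_cast h
  by_cases h1 : i.val < m / 2 <;> by_cases h2 : i'.val < m / 2 <;>
    by_cases h3 : j.val < n / 2 <;> by_cases h4 : j'.val < n / 2 <;>
    simp only [h1, h2, h3, h4, if_true, if_false, decide_true, decide_false, beq_self_eq_true,
      iff_self, true_and, and_true, Bool.true_beq, Bool.false_beq,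
      Bool.not_true, reduceCtorEq] at hp ha ⊢
  all_goals first
    | omega
    | (apply gj
       rcases alt_any ha with ⟨e, ⟨⟨a, b⟩, c | c⟩ | ⟨⟨a, b⟩, c | c⟩⟩ | ⟨e, ⟨⟨a, b⟩, c | c⟩ | ⟨⟨a, b⟩, c | c⟩⟩ <;>
        linarith)
    | (exfalso
       rcases alt_any ha with ⟨e, ⟨⟨a, b⟩, c | c⟩ | ⟨⟨a, b⟩, c | c⟩⟩ | ⟨e, ⟨⟨a, b⟩, c | c⟩ | ⟨⟨a, b⟩, c | c⟩⟩ <;>
        linarith)

/-- pairs `i < i'` in the same block -/
def sameHalf (m : ℕ) : Finset (Fin m × Fin m) :=
  univ.filter fun p => p.1 < p.2 ∧ (p.1.val < m / 2 ↔ p.2.val < m / 2)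

lemma card_sameHalf (m : ℕ) : (sameHalf m).card ≤ (m / 2) * ((m - 1) / 2) := by
  rw [← card_range (m / 2), ← card_range ((m - 1) / 2), ← card_product]
  apply card_le_card_of_injOn
    (fun p : Fin m × Fin m => if p.2.val < m / 2 then (p.2.val, p.1.val)
      else (p.1.val - m / 2, p.2.val - m / 2 - 1))
  · rintro ⟨i, i'⟩ hp
    simp only [sameHalf, coe_filter, mem_univ, true_and, Set.mem_ofPred_eq, Fin.lt_def] at hp
    have h1 := i.isLt
    have h2 := i'.isLt
    simp only [coe_product, coe_range]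
    split_ifs with h
    · simp only [Set.mem_prod, Set.mem_Iio]
      omega
    · simp only [Set.mem_prod, Set.mem_Iio]
      omega
  · rintro ⟨i, i'⟩ hp ⟨l, l'⟩ hq heq
    simp only [sameHalf, coe_filter, mem_univ, true_and, Set.mem_ofPred_eq, Fin.lt_def] at hp hq
    simp only at heq
    have h1 := i.isLt
    have h2 := i'.isLt
    have h3 := l.isLt
    have h4 := l'.isLt
    split_ifs at heq with ha hb hb <;> simp only [Prod.mk.injEq] at heq <;>
      (refine Prod.ext (Fin.ext ?_) (Fin.ext ?_) <;> simp only <;> omega)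

/-- Zarankiewicz's drawing has at most `⌊m/2⌋⌊(m-1)/2⌋⌊n/2⌋⌊(n-1)/2⌋` crossings. -/
theorem zarD_crossings_le (m n : ℕ) :
    (zarD m n).crossings ≤ (m / 2) * ((m - 1) / 2) * ((n / 2) * ((n - 1) / 2)) := by
  classical
  have hsub : {p : (Fin m × Fin n) × (Fin m × Fin n) | p.1.1 < p.2.1 ∧ (zarD m n).Cross p.1 p.2} ⊆
      ↑((univ : Finset ((Fin m × Fin n) × (Fin m × Fin n))).filter fun p =>
        (p.1.1, p.2.1) ∈ sameHalf m ∧ (p.1.2, p.2.2) ∈ sameHalf n) := by
    rintro ⟨⟨i, j⟩, ⟨i', j'⟩⟩ ⟨h, hc⟩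
    have := zar_cross i i' j j' h hc
    simp only [sameHalf, coe_filter, mem_univ, true_and, mem_filter, Set.mem_ofPred_eq]
    exact ⟨⟨h, this.1⟩, this.2.1, this.2.2⟩
  unfold TwoPageDrawing.crossings
  refine (Set.ncard_le_ncard hsub (Finset.finite_toSet _)).trans ?_
  rw [Set.ncard_coe_finset]
  refine le_trans ?_ (Nat.mul_le_mul (card_sameHalf m) (card_sameHalf n))
  rw [← card_product]
  apply card_le_card_of_injOn
    (fun p : (Fin m × Fin n) × (Fin m × Fin n) => ((p.1.1, p.2.1), (p.1.2, p.2.2)))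
  · rintro ⟨⟨i, j⟩, ⟨i', j'⟩⟩ hp
    simp only [coe_filter, mem_univ, true_and, Set.mem_ofPred_eq] at hp
    simp only [coe_product, Set.mem_prod, mem_coe]
    exact hp
  · rintro ⟨⟨i, j⟩, ⟨i', j'⟩⟩ _ ⟨⟨l, o⟩, ⟨l', o'⟩⟩ _ heq
    simp only [Prod.mk.injEq] at heq
    obtain ⟨⟨rfl, rfl⟩, rfl, rfl⟩ := heq
    rfl

end Vale.Agent.P040.All
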